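import Vale.Agent.P183.Defs

/-!
Representations by finite unary algebras.
-/

namespace Vale.Agent.P183

/-- The map `f` is compatible with the equivalence `r`. -/
def Compat {A : Type} (f : A → A) (r : Setoid A) : Prop :=
  ∀ x y, r x y → r (f x) (f y)

/-- `L` is the congruence lattice of a finite unary algebra. -/
def UnaryRep (L : Type) [Preorder L] : Prop :=
  ∃ (A : Type) (_ : Finite A) (_ : Nonempty A) (ι : Type) (_ : Finite ι) (F : ι → A → A),
    Nonempty (L ≃o {r : Setoid A // ∀ i, Compat (F i) r})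

theorem UnaryRep.congr {L M : Type} [Preorder L] [Preorder M] (h : UnaryRep L) (e : L ≃o M) :
    UnaryRep M := by
  obtain ⟨A, hA, hne, ι, hι, F, ⟨f⟩⟩ := h
  exact ⟨A, hA, hne, ι, hι, F, ⟨e.symm.trans f⟩⟩

theorem UnaryRep.isRepresentable {L : Type} [Preorder L] (h : UnaryRep L) :
    IsRepresentable L := by
  obtain ⟨A, hA, hne, ι, hι, F, ⟨f⟩⟩ := h
  classical
  haveI := Fintype.ofFinite ι
  let e := (Fintype.equivFin ι).symm
  have key : ∀ r : Setoid A, (∀ i, Compat (F i) r) ↔
      ∀ (i : Fin (Fintype.card ι)) (x y : Fin 1 → A),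
        (∀ j, r (x j) (y j)) → r (F (e i) (x 0)) (F (e i) (y 0)) := by
    intro r
    constructor
    · intro hr i x y hxy
      exact hr (e i) _ _ (hxy 0)
    · intro hr i x y hxy
      have := hr (e.symm i) (fun _ => x) (fun _ => y) (fun _ => hxy)
      simpa using this
  exact ⟨A, hA, hne, Fintype.card ι, fun _ => 1, fun i x => F (e i) (x 0),
    ⟨f.trans
      { toEquiv := Equiv.subtypeEquivRight key
        map_rel_iff' := by intro a b; exact Iff.rfl }⟩⟩

end Vale.Agent.P183
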