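import Vale.Agent.P183.Homs
import Vale.Agent.P183.Unary

/-!
The algebra: all gadgets glued at a base point, modulo the least equivalence.
-/

namespace Vale.Agent.P183.Base

variable {L : Type} [Lattice L] [OrderBot L] [Finite L] (B : Base L)

/-- The points of the algebra before the final quotient. -/
def Pts : Type := Option (Σ r : {r : L // SupIrred r}, (B.gad r.1).pt)

/-- Generating pairs: inside a component, or from the base point to an end. -/
inductive Glue (a : L) : B.Pts → B.Pts → Prop
  | child (r : {r : L // SupIrred r}) (x y : (B.gad r.1).pt) (h : (B.gad r.1).rel a x y) :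
      Glue a (some ⟨r, x⟩) (some ⟨r, y⟩)
  | root (r : {r : L // SupIrred r}) : Glue a none (some ⟨r, (B.gad r.1).e0⟩)

theorem finite_pts : Finite B.Pts := by
  haveI : ∀ r : {r : L // SupIrred r}, Finite (B.gad r.1).pt := fun r => (B.gad r.1).finite_pt
  unfold Pts
  infer_instance

/-- All gadgets glued at their first ends. -/
noncomputable def total : Gad L where
  pt := B.Pts
  finite_pt := B.finite_pts
  e0 := none
  e1 := none
  rel a := Relation.EqvGen.setoid (B.Glue a)
  mono a b hab := eqvGen_le fun x y h => Relation.EqvGen.rel _ _ (by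
    cases h with
    | child r x y h => exact .child r x y ((B.gad r.1).mono hab h)
    | root r => exact .root r)

/-- The inclusion of a component. -/
noncomputable def incl (r : {r : L // SupIrred r}) : GHom (B.gad r.1) B.total :=
  ⟨fun x => some ⟨r, x⟩, fun _ x y h => Relation.EqvGen.rel _ _ (.child r x y h)⟩

theorem exists_retract (r : {r : L // SupIrred r}) :
    ∃ F : GHom B.total (B.gad r.1), (∀ x, F.map (some ⟨r, x⟩) = x) ∧
      F.map none = (B.gad r.1).e0 ∧
      ∀ r' x, r' ≠ r → F.map (some ⟨r', x⟩) = (B.gad r.1).e0 := by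
  classical
  let f : B.Pts → (B.gad r.1).pt
    | none => (B.gad r.1).e0
    | some ⟨r', x⟩ => if h : r' = r then h ▸ x else (B.gad r.1).e0
  refine ⟨⟨f, fun a => ?_⟩, fun x => by simp [f], rfl, fun r' x h => by simp [f, h]⟩
  suffices Relation.EqvGen.setoid (B.Glue a) ≤ Setoid.comap f ((B.gad r.1).rel a) from
    fun x y h => this h
  refine eqvGen_le fun x y h => ?_
  show (B.gad r.1).rel a (f x) (f y)
  cases h with
  | child r' x y h =>
    by_cases e : r' = r
    · subst e; simpa [f] using h
    · simp only [f, dif_neg e]; exact Setoid.refl' _ _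
  | root r' =>
    by_cases e : r' = r
    · subst e; simp only [f, dite_true]; exact Setoid.refl' _ _
    · simp only [f, dif_neg e]; exact Setoid.refl' _ _

theorem le_of_rel_le {a b : L} (h : B.total.rel a ≤ B.total.rel b) : a ≤ b := by
  obtain ⟨s, hs, hirr⟩ := exists_supIrred_decomposition a
  rw [← hs]
  refine Finset.sup_le fun p hp => ?_
  obtain ⟨F, hF, -, -⟩ := B.exists_retract ⟨p, hirr hp⟩
  have h1 : (B.gad p).rel a (B.gad p).e0 (B.gad p).e1 :=
    (B.cutProp_gad p (hirr hp) a).mpr (le_of_le_of_eq (Finset.le_sup (f := id) hp) hs)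
  have h2 := F.pres b _ _ (h ((B.incl ⟨p, hirr hp⟩).pres a _ _ h1))
  simp only [incl] at h2
  rw [hF, hF] at h2
  exact (B.cutProp_gad p (hirr hp) b).mp h2

section Congruence

variable (s : Setoid B.Pts) (hbot : B.total.rel ⊥ ≤ s)
  (hs : ∀ h : GHom B.total B.total, ∀ x y, s x y → s (h.map x) (h.map y))

/-- The ends of the component of `p` are related by `s`. -/
def Inside (p : L) : Prop :=
  ∃ hp : SupIrred p, s (some ⟨⟨p, hp⟩, (B.gad p).e0⟩) (some ⟨⟨p, hp⟩, (B.gad p).e1⟩)

/-- The join of the colours of related ends. -/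
noncomputable def topElem : L := (Set.toFinite {p | B.Inside s p}).toFinset.sup id

include hs in
theorem image_rel {q : L} (hq : B.Inside s q) (h : GHom (B.gad q) B.total) :
    s (h.map (B.gad q).e0) (h.map (B.gad q).e1) := by
  obtain ⟨hq', hsq⟩ := hq
  obtain ⟨F, hF, -, -⟩ := B.exists_retract ⟨q, hq'⟩
  have := hs (h.comp F) _ _ hsq
  simp only [GHom.comp] at this
  rwa [hF, hF] at this

include hbot in
theorem ends_of_path {p : L} (hpc : B.Coll p) (T : GHom (B.gad p) B.total)
    (Q : B.Paths p)
    (hQ : ∀ r ∈ Q.1, ∀ h : GHom (B.gad r) B.total, s (h.map (B.gad r).e0) (h.map (B.gad r).e1)) :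
    s (T.map (B.gad p).e0) (T.map (B.gad p).e1) := by
  let G := (B.shape p).glue B.gad p
  let E : GHom G B.total := T.comp (GHom.cast (B.gad_coll hpc).symm)
  have hb : ∀ x y, G.rel ⊥ x y → s (E.map x) (E.map y) := fun x y h => hbot (E.pres ⊥ x y h)
  have key : ∀ k (hk : k < (B.shape p).len Q + 1),
      s (E.map G.e0) (E.map (Shape.Point.junc Q ⟨k, hk⟩)) := by
    intro k
    induction k with
    | zero =>
      intro hk
      exact hb G.e0 (Shape.Point.junc Q ⟨0, hk⟩)
        (Shape.link (Shape.Link.first (C := (B.shape p).kids B.gad) Q))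
    | succ k ih =>
      intro hk
      let i : Fin ((B.shape p).len Q) := ⟨k, by omega⟩
      have hr : (B.shape p).letter Q i ∈ Q.1 := word_mem Q.1 Q.2.2.1 i.1
      refine s.trans' (ih (by omega)) (s.trans' (hb (Shape.Point.junc Q i.castSucc) _
        (Shape.link (Shape.Link.left (C := (B.shape p).kids B.gad) Q i))) ?_)
      have c1 : s (E.map (Shape.Point.inner Q i true (B.gad ((B.shape p).letter Q i)).e0))
          (E.map (Shape.Point.inner Q i true (B.gad ((B.shape p).letter Q i)).e1)) :=
        hQ _ hr (E.comp (Shape.embed (S := B.shape p) (ch := B.gad) (p := p) Q i true))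
      have c2 : s (E.map (Shape.Point.inner Q i false (B.gad ((B.shape p).letter Q i)).e0))
          (E.map (Shape.Point.inner Q i false (B.gad ((B.shape p).letter Q i)).e1)) :=
        hQ _ hr (E.comp (Shape.embed (S := B.shape p) (ch := B.gad) (p := p) Q i false))
      exact s.trans' c1 (s.trans'
        (hb _ _ (Shape.link (Shape.Link.middle (C := (B.shape p).kids B.gad) Q i)))
        (s.trans' (s.symm' c2)
          (hb _ _ (Shape.link (Shape.Link.right (C := (B.shape p).kids B.gad) Q i)))))
  have h1 := s.trans' (key ((B.shape p).len Q) (by omega)) (hb (Shape.Point.junc Q (Fin.last _)) _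
    (Shape.link (Shape.Link.last (C := (B.shape p).kids B.gad) Q)))
  have e0 : (GHom.cast (B.gad_coll hpc).symm).map G.e0 = (B.gad p).e0 := GHom.cast_e0 _
  have e1 : (GHom.cast (B.gad_coll hpc).symm).map G.e1 = (B.gad p).e1 := GHom.cast_e1 _
  have h2 : s (E.map G.e0) (E.map G.e1) := h1
  simp only [E, GHom.comp, e0, e1] at h2
  exact h2

include hbot hs in
theorem inside_of_le_topElem {p : L} (hp : SupIrred p) (hle : p ≤ B.topElem s) :
    B.Inside s p := by
  classical
  set P := (Set.toFinite {p | B.Inside s p}).toFinset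
  have hP : ∀ q ∈ P, B.Inside s q := fun q hq => by simpa [P] using hq
  induction hn : B.meas p using Nat.strong_induction_on generalizing p with
  | _ n ih =>
    by_cases hc : B.Coll p
    swap
    · refine ⟨hp, ?_⟩
      let T : GHom (B.blob p) B.total :=
        (B.incl ⟨p, hp⟩).comp (GHom.cast (B.gad_blob hc).symm)
      have hR := B.le_of_hom_images p (Setoid.comap T.map s) P
        (fun q hq => (hP q hq).1)
        (fun q hq h => B.image_rel s hs (hP q hq) (T.comp h))
        (fun q _ hqc x y hxy => B.exists_hom_blob q hqc p x y hxy)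
      have h1 : s (T.map (B.ends p).1) (T.map (B.ends p).2) :=
        hR (B.mono hle (B.principal_ends hp hc).1)
      have e0 : (GHom.cast (B.gad_blob hc).symm).map (B.ends p).1 = (B.gad p).e0 :=
        GHom.cast_e0 (B.gad_blob hc).symm
      have e1 : (GHom.cast (B.gad_blob hc).symm).map (B.ends p).2 = (B.gad p).e1 :=
        GHom.cast_e1 (B.gad_blob hc).symm
      simp only [T, GHom.comp, e0, e1] at h1
      exact h1
    by_cases hbig : ∃ r ∈ P, p ≤ r
    · obtain ⟨r, hr, hpr⟩ := hbig
      by_cases hrc : B.Coll r
      · obtain ⟨h, h0, h1⟩ := B.exists_hom_gad r hrc p hp hpr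
        refine ⟨hp, ?_⟩
        have := B.image_rel s hs (hP r hr) ((B.incl ⟨p, hp⟩).comp h)
        simp only [GHom.comp, h0, h1] at this
        exact this
      · refine ⟨hp, B.ends_of_path s hbot hc (B.incl ⟨p, hp⟩)
          ⟨{r}, by simpa using hpr, ⟨r, Finset.mem_singleton_self r⟩, fun x hx => by
            rw [Finset.mem_singleton] at hx
            exact hx ▸ B.desc_of_not_coll hc (hP r hr).1 hrc⟩ ?_⟩
        intro x hx h
        rw [Finset.mem_singleton] at hx
        subst hx
        exact B.image_rel s hs (hP x hr) h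
    push Not at hbig
    obtain ⟨R, h1, h2, h3, h4⟩ := B.exists_descending hc hle hbig
    refine ⟨hp, B.ends_of_path s hbot hc (B.incl ⟨p, hp⟩) ⟨R, h1, h2, h3⟩ fun r hr h => ?_⟩
    obtain ⟨q, hq, hrq⟩ := h4 r hr
    exact B.image_rel s hs
      (ih _ (hn ▸ (h3 r hr).2) (h3 r hr).1 (hrq.trans (Finset.le_sup (f := id) hq)) rfl) h

include hbot hs in
theorem rel_topElem_le : B.total.rel (B.topElem s) ≤ s := by
  refine eqvGen_le fun x y h => ?_
  cases h with
  | child r x y h =>
    exact B.genProp_gad r.1 r.2 (B.topElem s) (Setoid.comap (B.incl r).map s)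
      (fun u v huv => hbot ((B.incl r).pres ⊥ u v huv))
      (fun q hq hqa f => B.image_rel s hs (B.inside_of_le_topElem s hbot hs hq hqa)
        ((B.incl r).comp f)) h
  | root r => exact hbot (Relation.EqvGen.rel _ _ (.root r))

include hbot hs in
theorem le_rel_topElem : s ≤ B.total.rel (B.topElem s) := by
  intro u v huv
  set a := B.topElem s
  have key : ∀ (r : {r : L // SupIrred r}) (F : GHom B.total (B.gad r.1)),
      (B.gad r.1).rel a (F.map u) (F.map v) := by
    intro r F
    rcases B.sepProp_gad r.1 r.2 a (F.map u) (F.map v) with h | ⟨q, hq, hqa, hw⟩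
    · exact h
    · exfalso
      apply hqa
      have h1 := hw (Setoid.comap (B.incl ⟨q, hq⟩).map s)
        (fun x y hxy => B.rel_topElem_le s hbot hs ((B.incl ⟨q, hq⟩).pres a x y hxy))
        (fun h => hs ((B.incl ⟨q, hq⟩).comp (h.comp F)) u v huv)
      refine Finset.le_sup (f := id) ?_
      simp only [Set.Finite.mem_toFinset, Set.mem_setOf_eq]
      exact ⟨hq, h1⟩
  have root : ∀ r, B.total.rel a none (some ⟨r, (B.gad r.1).e0⟩) := fun r =>
    Relation.EqvGen.rel _ _ (.root r)
  have step : ∀ r x y, (B.gad r.1).rel a x y →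
      B.total.rel a (some ⟨r, x⟩) (some ⟨r, y⟩) := fun r x y h =>
    (B.incl r).pres a x y h
  rcases u with _ | ⟨r, x⟩ <;> rcases v with _ | ⟨r', y⟩
  · exact Setoid.refl' _ _
  · obtain ⟨F, h1, h2, -⟩ := B.exists_retract r'
    have := key r' F
    rw [h1, h2] at this
    exact Setoid.trans' _ (root r') (step r' _ _ this)
  · obtain ⟨F, h1, h2, -⟩ := B.exists_retract r
    have := key r F
    rw [h1, h2] at this
    exact Setoid.trans' _ (step r _ _ this) (Setoid.symm' _ (root r))
  · by_cases e : r' = r
    · subst e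
      obtain ⟨F, h1, -, -⟩ := B.exists_retract r'
      have := key r' F
      rw [h1, h1] at this
      exact step r' _ _ this
    · obtain ⟨F, h1, -, h3⟩ := B.exists_retract r
      obtain ⟨F', h1', -, h3'⟩ := B.exists_retract r'
      have hx := key r F
      rw [h1, h3 r' y e] at hx
      have hy := key r' F'
      rw [h1', h3' r x (Ne.symm e)] at hy
      exact Setoid.trans' _ (Setoid.trans' _ (step r _ _ hx) (Setoid.symm' _ (root r)))
        (Setoid.trans' _ (root r') (step r' _ _ hy))

end Congruence

include B in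
theorem unaryRep : UnaryRep L := by
  haveI := B.finite_pts
  let bot : Setoid B.Pts := B.total.rel ⊥
  let Y := Quotient bot
  let relY : L → Setoid Y := fun a => Setoid.ker
    (Quotient.lift (fun x => Quotient.mk (B.total.rel a) x)
      (fun _ _ h => Quotient.sound (B.total.rel_bot h)) : Y → Quotient (B.total.rel a))
  have hrel : ∀ a (x y : B.Pts),
      relY a (Quotient.mk bot x) (Quotient.mk bot y) ↔ B.total.rel a x y :=
    fun a x y => Quotient.eq
  let Op := {f : Y → Y // ∀ a, Compat f (relY a)}
  let g : L → {r : Setoid Y // ∀ f : Op, Compat f.1 r} := fun a => ⟨relY a, fun f => f.2 a⟩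
  have hg : ∀ a b, g a ≤ g b ↔ a ≤ b := by
    intro a b
    constructor
    · intro h
      exact B.le_of_rel_le fun x y hxy => (hrel b x y).mp (h ((hrel a x y).mpr hxy))
    · intro hab x y
      induction x using Quotient.inductionOn with | _ x => ?_
      induction y using Quotient.inductionOn with | _ y => ?_
      exact fun h => (hrel b x y).mpr (B.total.mono hab ((hrel a x y).mp h))
  have hsur : Function.Surjective g := by
    rintro ⟨r, hr⟩
    let s : Setoid B.Pts := Setoid.comap (Quotient.mk bot) r
    have hbot : B.total.rel ⊥ ≤ s := fun x y h => by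
      show r _ _
      rw [Quotient.sound (s := bot) h]
    have hs : ∀ h : GHom B.total B.total, ∀ x y, s x y → s (h.map x) (h.map y) := by
      intro h x y hxy
      let f : Y → Y := Quotient.map h.map (fun a b hab => h.pres ⊥ a b hab)
      have hf : ∀ a, Compat f (relY a) := by
        intro a u v
        induction u using Quotient.inductionOn with | _ u => ?_
        induction v using Quotient.inductionOn with | _ v => ?_
        exact fun huv => (hrel a _ _).mpr (h.pres a u v ((hrel a u v).mp huv))
      exact hr ⟨f, hf⟩ _ _ hxy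
    refine ⟨B.topElem s, Subtype.ext ?_⟩
    ext x y
    induction x using Quotient.inductionOn with | _ x => ?_
    induction y using Quotient.inductionOn with | _ y => ?_
    rw [show (g (B.topElem s)).1 = relY (B.topElem s) from rfl, hrel]
    exact ⟨fun h => B.rel_topElem_le s hbot hs h, fun h => B.le_rel_topElem s hbot hs h⟩
  exact ⟨Y, inferInstance, ⟨Quotient.mk bot none⟩, Op, inferInstance, fun f => f.1,
    ⟨RelIso.ofSurjective (OrderEmbedding.ofMapLEIff g hg) hsur⟩⟩

end Vale.Agent.P183.Base
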