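import Vale.Agent.P183.Walk

/-!
The data: congruences `c a` of a finite algebra indexed by the lattice, and the gadgets.
-/

namespace Vale.Agent.P183

/-- A lattice over the congruence lattice of a finite algebra, with ranked covers. -/
structure Base (L : Type) [Lattice L] [OrderBot L] where
  /-- the algebra -/
  A : Type
  finA : Finite A
  neA : Nonempty A
  /-- the index of operations -/
  ι : Type
  /-- the operations -/
  F : ι → A → A
  /-- the congruence of an element -/
  c : L → Setoid A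
  compat : ∀ a i x y, c a x y → c a (F i x) (F i y)
  mono : Monotone c
  inf : ∀ a b x y, c a x y → c b x y → c (a ⊓ b) x y
  sup : ∀ (Q : Finset L) (t : Setoid A), (∀ i x y, t x y → t (F i x) (F i y)) →
    (∀ q ∈ Q, c q ≤ t) → c (Q.sup id) ≤ t
  surj : ∀ t : Setoid A, (∀ i x y, t x y → t (F i x) (F i y)) → ∃ b, t = c b
  /-- the rank -/
  rk : L → ℕ
  refine' : ∀ p, SupIrred p → (∃ x, x < p ∧ c x = c p) → ∀ Q : Finset L, p ≤ Q.sup id →
    (∀ q ∈ Q, ¬ p ≤ q) → ∃ R : Finset L, p ≤ R.sup id ∧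
      (∀ r ∈ R, SupIrred r ∧ ((∃ x, x < r ∧ c x = c r) → rk r < rk p)) ∧
        ∀ r ∈ R, ∃ q ∈ Q, r ≤ q

namespace Base

variable {L : Type} [Lattice L] [OrderBot L] [Finite L] (B : Base L)

/-- Collapsed join-irreducible elements. -/
def Coll (p : L) : Prop := SupIrred p ∧ ∃ x, x < p ∧ B.c x = B.c p

open Classical in
/-- The measure: zero off the collapsed elements. -/
noncomputable def meas (p : L) : ℕ := if B.Coll p then B.rk p + 1 else 0

/-- Admissible letters of a path of `p`. -/
def Desc (p q : L) : Prop := SupIrred q ∧ B.meas q < B.meas p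

theorem exists_irred_below {x : L} (a : L) (h : ¬ B.c x ≤ B.c a) :
    ∃ r, SupIrred r ∧ r ≤ x ∧ ¬ B.Coll r ∧ ¬ B.c r ≤ B.c a := by
  classical
  induction x using WellFoundedLT.induction with
  | _ x ih =>
    obtain ⟨s, hs, hirr⟩ := exists_supIrred_decomposition x
    obtain ⟨r, hr, hra⟩ : ∃ r ∈ s, ¬ B.c r ≤ B.c a := by
      by_contra hno
      push Not at hno
      exact h (hs ▸ B.sup s _ (B.compat a) hno)
    have hrx : r ≤ x := hs ▸ Finset.le_sup (f := id) hr
    by_cases hc : B.Coll r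
    · obtain ⟨z, hz, hzc⟩ := hc.2
      obtain ⟨r', h1, h2, h3⟩ := ih z (hz.trans_le hrx) (hzc ▸ hra)
      exact ⟨r', h1, h2.trans (hz.le.trans hrx), h3⟩
    · exact ⟨r, hirr hr, hrx, hc, hra⟩

theorem le_of_c_le {p a : L} (hp : SupIrred p) (hc : ¬ B.Coll p) (h : B.c p ≤ B.c a) :
    p ≤ a := by
  by_contra hna
  refine hc ⟨hp, p ⊓ a, lt_of_le_of_ne inf_le_left fun e => hna (inf_eq_left.mp e), ?_⟩
  exact le_antisymm (B.mono inf_le_left) fun x y hxy => B.inf p a x y hxy (h hxy)

/-- `x y` generates the congruence of `p`. -/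
def Principal (p : L) (x y : B.A) : Prop :=
  B.c p x y ∧ ∀ t : Setoid B.A, (∀ i x y, t x y → t (B.F i x) (B.F i y)) → t x y → B.c p ≤ t

theorem exists_principal {p : L} (hp : SupIrred p) (hc : ¬ B.Coll p) :
    ∃ x y, B.Principal p x y := by
  classical
  haveI := Fintype.ofFinite L
  let S : Finset L := Finset.univ.filter fun x => x < p
  have hS : S.sup id < p := by
    refine lt_of_le_of_ne (Finset.sup_le fun x hx => ((Finset.mem_filter.mp hx).2).le) fun e => ?_
    obtain ⟨x, hx, hxp⟩ := hp.finset_sup_eq e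
    exact ((Finset.mem_filter.mp hx).2).ne hxp
  have hne : ¬ B.c p ≤ B.c (S.sup id) := fun h => by
    exact absurd (B.le_of_c_le hp hc h) (not_le_of_gt hS)
  obtain ⟨x, y, hxy, hn⟩ : ∃ x y, B.c p x y ∧ ¬ B.c (S.sup id) x y := by
    by_contra hno
    push Not at hno
    exact hne fun x y h => hno x y h
  refine ⟨x, y, hxy, fun t ht hxt => ?_⟩
  obtain ⟨b, rfl⟩ := B.surj t ht
  have hb := B.inf p b x y hxy hxt
  by_cases hpb : p ≤ b
  · exact B.mono hpb
  · exfalso
    refine hn (B.mono ?_ hb)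
    exact Finset.le_sup (f := id) (Finset.mem_filter.mpr ⟨Finset.mem_univ _,
      lt_of_le_of_ne inf_le_left fun e => hpb (inf_eq_left.mp e)⟩)

open Classical in
/-- The pair of ends in the copy of the algebra for `p`. -/
noncomputable def ends (p : L) : B.A × B.A :=
  haveI := B.neA
  if h : ∃ x y, B.Principal p x y then (h.choose, h.choose_spec.choose)
  else (Classical.arbitrary _, Classical.arbitrary _)

theorem principal_ends {p : L} (hp : SupIrred p) (hc : ¬ B.Coll p) :
    B.Principal p (B.ends p).1 (B.ends p).2 := by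
  have h := B.exists_principal hp hc
  simp only [ends, dif_pos h]
  exact h.choose_spec.choose_spec

/-- A copy of the algebra, with the ends of `p`. -/
noncomputable def blob (p : L) : Gad L :=
  ⟨B.A, B.finA, (B.ends p).1, (B.ends p).2, B.c, B.mono⟩

/-- The identity between two copies of the algebra. -/
noncomputable def transfer (p q : L) : GHom (B.blob p) (B.blob q) := ⟨fun x => x, fun _ _ _ h => h⟩

/-- An operation as a map between copies of the algebra. -/
noncomputable def op (p : L) (i : B.ι) : GHom (B.blob p) (B.blob p) :=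
  ⟨B.F i, fun a x y h => B.compat a i x y h⟩

open Classical in
/-- The number of repetitions. -/
noncomputable def reps (p : L) : ℕ :=
  (Nat.card B.A + 3) * (2 * Nat.card L + 1) ^ {x : L | x ≤ p}.ncard

theorem three_le_reps (p : L) : 3 ≤ B.reps p :=
  le_trans (Nat.le_add_left 3 _) (Nat.le_mul_of_pos_right _ (Nat.pow_pos (Nat.succ_pos _)))

theorem card_le_reps (p : L) : Nat.card B.A ≤ B.reps p :=
  le_trans (Nat.le_add_right _ 3) (Nat.le_mul_of_pos_right _ (Nat.pow_pos (Nat.succ_pos _)))

theorem reps_growth {p q : L} (h : p < q) {n : ℕ} (hn : n ≤ Nat.card L) :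
    2 * (B.reps p * n) ≤ B.reps q := by
  have hlt : {x : L | x ≤ p}.ncard < {x : L | x ≤ q}.ncard :=
    Set.ncard_lt_ncard ⟨fun x hx => le_trans hx h.le, fun hsub => not_le_of_gt h (hsub le_rfl)⟩
      (Set.toFinite _)
  have hp : (2 * Nat.card L + 1) ^ ({x : L | x ≤ p}.ncard + 1) ≤
      (2 * Nat.card L + 1) ^ {x : L | x ≤ q}.ncard :=
    Nat.pow_le_pow_right (Nat.succ_pos _) hlt
  unfold reps
  calc 2 * ((Nat.card B.A + 3) * (2 * Nat.card L + 1) ^ {x : L | x ≤ p}.ncard * n)
      = (Nat.card B.A + 3) * ((2 * Nat.card L + 1) ^ {x : L | x ≤ p}.ncard * (2 * n)) := by ring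
    _ ≤ (Nat.card B.A + 3) *
        ((2 * Nat.card L + 1) ^ {x : L | x ≤ p}.ncard * (2 * Nat.card L + 1)) := by gcongr; omega
    _ ≤ _ := by rw [← pow_succ]; gcongr

/-- The covers of `p` used for its paths. -/
def Paths (p : L) : Type :=
  {Q : Finset L // p ≤ Q.sup id ∧ Q.Nonempty ∧ ∀ q ∈ Q, B.Desc p q}

/-- The periodic word of a cover. -/
noncomputable def word (Q : Finset L) (hQ : Q.Nonempty) (i : ℕ) : L :=
  (Q.equivFin.symm ⟨i % Q.card, Nat.mod_lt _ hQ.card_pos⟩).1

/-- The shape of the gadget of `p`. -/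
noncomputable def shape (p : L) : Shape L where
  J := B.Paths p
  finite_J := by
    unfold Paths
    infer_instance
  len Q := B.reps p * Q.1.card
  letter Q i := word Q.1 Q.2.2.1 i.1

theorem word_mem (Q : Finset L) (hQ : Q.Nonempty) (i : ℕ) : word Q hQ i ∈ Q :=
  (Q.equivFin.symm _).2

omit [Finite L] in
theorem word_add (Q : Finset L) (hQ : Q.Nonempty) (i : ℕ) :
    word Q hQ (i + Q.card) = word Q hQ i := by
  simp [word]

omit [Finite L] in
theorem exists_word (Q : Finset L) (hQ : Q.Nonempty) {r : L} (hr : r ∈ Q) :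
    ∃ t < Q.card, word Q hQ t = r := by
  refine ⟨(Q.equivFin ⟨r, hr⟩).1, (Q.equivFin ⟨r, hr⟩).2, ?_⟩
  simp only [word, Nat.mod_eq_of_lt (Q.equivFin ⟨r, hr⟩).2, Fin.eta,
    Equiv.symm_apply_apply]

theorem letter_desc {p : L} (Q : (B.shape p).J) (i : Fin ((B.shape p).len Q)) :
    B.Desc p ((B.shape p).letter Q i) :=
  Q.2.2.2 _ (word_mem Q.1 Q.2.2.1 i.1)

open Classical in
/-- The gadget of `p`. -/
noncomputable def gad (p : L) : Gad L :=
  if B.Coll p then
    (B.shape p).glue (fun r => if _h : B.meas r < B.meas p then gad r else B.blob r) p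
  else B.blob p
termination_by B.meas p

theorem gad_blob {p : L} (h : ¬ B.Coll p) : B.gad p = B.blob p := by
  rw [gad, if_neg h]

theorem gad_coll {p : L} (h : B.Coll p) : B.gad p = (B.shape p).glue B.gad p := by
  rw [gad, if_pos h]
  exact Shape.glue_congr _ _ fun j i => dif_pos (B.letter_desc j i).2

end Base

end Vale.Agent.P183
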