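import Vale.Agent.P183.Gadget

/-!
Properties of gadgets and their preservation under composition: ends are related exactly above
the colour, the equivalences are generated by images of ends, and unrelated points are
separated by a map onto some gadget.
-/

namespace Vale.Agent.P183

variable {L : Type} [Lattice L] [OrderBot L]

/-- Every equivalence of `G` is generated by images of ends. -/
def GenProp (Gf : L → Gad L) (G : Gad L) : Prop :=
  ∀ (a : L) (s : Setoid G.pt), G.rel ⊥ ≤ s →
    (∀ q, SupIrred q → q ≤ a → ∀ h : GHom (Gf q) G, s (h.map (Gf q).e0) (h.map (Gf q).e1)) →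
      G.rel a ≤ s

/-- The pair `u v` produces the ends of a gadget whose colour is not below `a`. -/
def Witness (Gf : L → Gad L) (a : L) (G : Gad L) (u v : G.pt) : Prop :=
  ∃ q, SupIrred q ∧ ¬ q ≤ a ∧ ∀ t : Setoid (Gf q).pt, (Gf q).rel a ≤ t →
    (∀ h : GHom G (Gf q), t (h.map u) (h.map v)) → t (Gf q).e0 (Gf q).e1

/-- Unrelated pairs have witnesses. -/
def SepProp (Gf : L → Gad L) (G : Gad L) : Prop :=
  ∀ (a : L) (u v : G.pt), G.rel a u v ∨ Witness Gf a G u v

/-- The ends are related exactly above `p`. -/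
def CutProp (G : Gad L) (p : L) : Prop := ∀ a, G.rel a G.e0 G.e1 ↔ p ≤ a

namespace Witness

variable {Gf : L → Gad L} {a : L} {G : Gad L} {u v : G.pt}

theorem symm (h : Witness Gf a G u v) : Witness Gf a G v u := by
  obtain ⟨q, h1, h2, h3⟩ := h
  exact ⟨q, h1, h2, fun t ht hh => h3 t ht fun f => t.symm' (hh f)⟩

theorem congr {u' v' : G.pt} (h : Witness Gf a G u' v') (hu : G.rel a u u') (hv : G.rel a v v') :
    Witness Gf a G u v := by
  obtain ⟨q, h1, h2, h3⟩ := h
  exact ⟨q, h1, h2, fun t ht hh => h3 t ht fun f =>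
    t.trans' (t.symm' (ht (f.pres a _ _ hu))) (t.trans' (hh f) (ht (f.pres a _ _ hv)))⟩

theorem push {H : Gad L} (f : GHom G H) (h : Witness Gf a H (f.map u) (f.map v)) :
    Witness Gf a G u v := by
  obtain ⟨q, h1, h2, h3⟩ := h
  exact ⟨q, h1, h2, fun t ht hh => h3 t ht fun g => hh (g.comp f)⟩

theorem of_ends {q : L} (hq : SupIrred q) (hqa : ¬ q ≤ a) (f : GHom G (Gf q))
    (hu : (Gf q).rel a (f.map u) (Gf q).e0) (hv : (Gf q).rel a (f.map v) (Gf q).e1) :
    Witness Gf a G u v :=
  ⟨q, hq, hqa, fun t ht hh => t.trans' (t.symm' (ht hu)) (t.trans' (hh f) (ht hv))⟩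

end Witness

/-- A two-point target seeing the colours not below `a`. -/
def twoPoint (a : L) : Gad L where
  pt := Bool
  finite_pt := inferInstance
  e0 := false
  e1 := true
  rel b :=
    { r := fun x y => x = y ∨ ¬ b ≤ a
      iseqv := ⟨fun x => Or.inl rfl, fun h => h.imp Eq.symm id,
        fun h h' => h.elim (fun e => e ▸ h') Or.inr⟩ }
  mono b c hbc x y h := h.imp id fun hb hc => hb (hbc.trans hc)

theorem exists_cut {G : Gad L} {a : L} (h : ¬ G.rel a G.e0 G.e1) :
    ∃ f : GHom G (twoPoint a), f.map G.e0 = false ∧ f.map G.e1 = true := by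
  classical
  refine ⟨⟨fun x => if G.rel a G.e0 x then false else true, fun b x y hxy => ?_⟩, ?_, ?_⟩
  · by_cases hb : b ≤ a
    · have hxy' : G.rel a x y := G.mono hb hxy
      refine Or.inl ?_
      have : G.rel a G.e0 x ↔ G.rel a G.e0 y :=
        ⟨fun h => (G.rel a).trans' h hxy', fun h => (G.rel a).trans' h ((G.rel a).symm' hxy')⟩
      simp only [this]
      rfl
    · exact Or.inr hb
  · exact if_pos ((G.rel a).refl' _)
  · exact if_neg h

/-- One slot of a path can move `x` to `z`. -/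
def Move (Gf : L → Gad L) (T : Gad L) (r : L) (x z : T.pt) : Prop :=
  T.rel ⊥ x z ∨ ∃ h : GHom (Gf r) T,
    (T.rel ⊥ x (h.map (Gf r).e0) ∧ T.rel ⊥ (h.map (Gf r).e1) z) ∨
      (T.rel ⊥ x (h.map (Gf r).e1) ∧ T.rel ⊥ (h.map (Gf r).e0) z)

theorem Move.twins {Gf : L → Gad L} {T : Gad L} {r : L} {x z : T.pt} (h : Move Gf T r x z) :
    ∃ f g : GHom (Gf r) T, T.rel ⊥ x (f.map (Gf r).e0) ∧
      T.rel ⊥ (f.map (Gf r).e1) (g.map (Gf r).e1) ∧ T.rel ⊥ (g.map (Gf r).e0) z := by
  rcases h with h | ⟨f, h | h⟩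
  · exact ⟨GHom.const _ x, GHom.const _ x, (T.rel ⊥).refl' x, (T.rel ⊥).refl' x, h⟩
  · exact ⟨f, GHom.const _ z, h.1, h.2, (T.rel ⊥).refl' z⟩
  · exact ⟨GHom.const _ x, f, (T.rel ⊥).refl' x, h.1, h.2⟩

variable {Gf : L → Gad L} {S : Shape L} {p : L}

/-- A composite gadget maps wherever every one of its paths can be walked. -/
theorem Shape.exists_hom {T : Gad L} {u v : T.pt} (hedge : ∀ a, p ≤ a → T.rel a u v)
    (hpath : ∀ j, ∃ y : ℕ → T.pt, T.rel ⊥ u (y 0) ∧ T.rel ⊥ (y (S.len j)) v ∧
      ∀ i : Fin (S.len j), Move Gf T (S.letter j i) (y i.1) (y (i.1 + 1))) :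
    ∃ h : GHom (S.glue Gf p) T, h.map (S.glue Gf p).e0 = u ∧ h.map (S.glue Gf p).e1 = v := by
  choose y h0 h1 hmove using hpath
  choose f g hl hm hr using fun j i => (hmove j i).twins
  exact ⟨S.lift u v y f g h0 h1 hedge hl hm hr, rfl, rfl⟩

theorem Shape.rel_ends {a : L} (h : p ≤ a) :
    (S.glue Gf p).rel a (S.glue Gf p).e0 (S.glue Gf p).e1 := Shape.link (.edge h)

theorem Shape.genProp_glue (hp : SupIrred p) (e : Gf p = S.glue Gf p)
    (hgen : ∀ j i, GenProp Gf (Gf (S.letter j i))) : GenProp Gf (S.glue Gf p) := by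
  intro a s hs hends
  refine eqvGen_le fun x y h => ?_
  cases h with
  | first j => exact hs (Shape.link (.first j))
  | last j => exact hs (Shape.link (.last j))
  | left j i => exact hs (Shape.link (.left j i))
  | middle j i => exact hs (Shape.link (.middle j i))
  | right j i => exact hs (Shape.link (.right j i))
  | child j i b x y hxy =>
    exact hgen j i a (Setoid.comap (Shape.embed (ch := Gf) (p := p) j i b).map s)
      (fun z w hzw => hs ((Shape.embed (p := p) j i b).pres ⊥ z w hzw))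
      (fun q hq hqa f => hends q hq hqa ((Shape.embed j i b).comp f)) hxy
  | edge h =>
    have := hends p hp h (GHom.cast e)
    rw [GHom.cast_e0, GHom.cast_e1] at this
    exact this

theorem Shape.cutProp_glue (hcov : ∀ j a, (∀ i, S.letter j i ≤ a) → p ≤ a)
    (hcut : ∀ j i, CutProp (Gf (S.letter j i)) (S.letter j i)) :
    CutProp (S.glue Gf p) p := by
  classical
  intro a
  refine ⟨fun hrel => ?_, Shape.rel_ends⟩
  by_contra hpa
  have hbad : ∀ j, ∃ i, ¬ S.letter j i ≤ a := fun j => by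
    by_contra hno
    push Not at hno
    exact hpa (hcov j a hno)
  choose l hl using hbad
  obtain ⟨h, h0, h1⟩ := Shape.exists_hom (S := S) (Gf := Gf) (p := p)
      (T := twoPoint a) (u := (false : Bool)) (v := (true : Bool))
      (fun b hpb => Or.inr fun hba => hpa (hpb.trans hba)) (fun j => by
    refine ⟨fun n => decide ((l j).1 < n), Or.inl (by simp), Or.inl (by simp [(l j).2]), ?_⟩
    intro i
    by_cases hi : i = l j
    · obtain ⟨f, f0, f1⟩ := exists_cut (a := a) (G := Gf (S.letter j i))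
        (fun h => hl j (hi ▸ (hcut j i a).mp h))
      refine Or.inr ⟨f, Or.inl ⟨Or.inl ?_, Or.inl ?_⟩⟩
      · rw [f0]; simp [hi]
      · rw [f1]; simp [hi]
    · have : i.1 ≠ (l j).1 := fun e => hi (Fin.ext e)
      refine Or.inl (Or.inl ?_)
      simp only [decide_eq_decide]
      omega)
  have := h.pres a _ _ hrel
  rw [h0, h1] at this
  rcases this with h | h
  · exact Bool.false_ne_true h
  · exact h le_rfl

end Vale.Agent.P183
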