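import Vale.Agent.P183.Defs

/-!
Every nontrivial join cover refines to a minimal one by join-irreducible elements.
-/

namespace Vale.Agent.P183

variable {L : Type} [Lattice L] [OrderBot L] [Finite L]

open Classical in
theorem exists_minCover_refining (p : L) (A : Finset L) (hA : p ≤ A.sup id)
    (hnot : ∀ a ∈ A, ¬ p ≤ a) :
    ∃ Q : Finset L, MinCover p Q ∧ (∀ q ∈ Q, SupIrred q) ∧ ∀ q ∈ Q, ∃ a ∈ A, q ≤ a := by
  haveI := Fintype.ofFinite L
  let irr : Finset L → Finset L := fun B =>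
    Finset.univ.filter fun j => SupIrred j ∧ ∃ b ∈ B, j ≤ b
  have hsup : ∀ B : Finset L, B.sup id ≤ (irr B).sup id := by
    intro B
    refine Finset.sup_le fun b hb => ?_
    obtain ⟨s, hs, hirr⟩ := exists_supIrred_decomposition b
    show b ≤ _
    rw [← hs]
    refine Finset.sup_le fun j hj => Finset.le_sup (f := id) ?_
    exact Finset.mem_filter.mpr ⟨Finset.mem_univ j, hirr hj, b, hb,
      hs ▸ Finset.le_sup (f := id) hj⟩
  let down : Finset L → Finset L := fun B => Finset.univ.filter fun x => ∃ b ∈ B, x ≤ b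
  let cand : Finset (Finset L) := Finset.univ.filter fun Q =>
    p ≤ Q.sup id ∧ (∀ q ∈ Q, SupIrred q) ∧ ∀ q ∈ Q, ∃ a ∈ A, q ≤ a
  have hcand : irr A ∈ cand := by
    refine Finset.mem_filter.mpr ⟨Finset.mem_univ _, hA.trans (hsup A), ?_, ?_⟩
    · exact fun q hq => (Finset.mem_filter.mp hq).2.1
    · exact fun q hq => (Finset.mem_filter.mp hq).2.2
  obtain ⟨Q, hQ, hmin⟩ := Finset.exists_min_image cand
    (fun Q => toLex ((down Q).card, Q.card)) ⟨_, hcand⟩
  obtain ⟨-, hp, hirr, hAQ⟩ := Finset.mem_filter.mp hQ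
  refine ⟨Q, ⟨hp, ?_, ?_⟩, hirr, hAQ⟩
  · intro q hq hpq
    obtain ⟨a, ha, hqa⟩ := hAQ q hq
    exact hnot a ha (hpq.trans hqa)
  have hdown : ∀ B, B ∈ cand → down B ⊆ down Q → down B = down Q := by
    intro B hB hsub
    by_contra hne
    have hlt := Finset.card_lt_card (lt_of_le_of_ne hsub hne)
    have := hmin B hB
    rw [Prod.Lex.toLex_le_toLex] at this
    omega
  intro B hBQ hpB q hq
  have hB' : irr B ∈ cand := by
    refine Finset.mem_filter.mpr ⟨Finset.mem_univ _, hpB.trans (hsup B), ?_, ?_⟩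
    · exact fun j hj => (Finset.mem_filter.mp hj).2.1
    · intro j hj
      obtain ⟨b, hb, hjb⟩ := (Finset.mem_filter.mp hj).2.2
      obtain ⟨q', hq', hbq⟩ := hBQ b hb
      obtain ⟨a, ha, hqa⟩ := hAQ q' hq'
      exact ⟨a, ha, hjb.trans (hbq.trans hqa)⟩
  have hsub : down (irr B) ⊆ down Q := by
    intro x hx
    obtain ⟨j, hj, hxj⟩ := (Finset.mem_filter.mp hx).2
    obtain ⟨b, hb, hjb⟩ := (Finset.mem_filter.mp hj).2.2
    obtain ⟨q', hq', hbq⟩ := hBQ b hb
    exact Finset.mem_filter.mpr ⟨Finset.mem_univ _, q', hq', hxj.trans (hjb.trans hbq)⟩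
  have hqd : q ∈ down (irr B) := by
    rw [hdown _ hB' hsub]
    exact Finset.mem_filter.mpr ⟨Finset.mem_univ _, q, hq, le_rfl⟩
  obtain ⟨j, hj, hqj⟩ := (Finset.mem_filter.mp hqd).2
  obtain ⟨b, hb, hjb⟩ := (Finset.mem_filter.mp hj).2.2
  obtain ⟨q', hq', hbq⟩ := hBQ b hb
  -- `Q` is an antichain: a dominated member could be dropped.
  have hqq' : q = q' := by
    by_contra hne
    have hle : q ≤ q' := hqj.trans (hjb.trans hbq)
    have hc : Q.erase q ∈ cand := by
      refine Finset.mem_filter.mpr ⟨Finset.mem_univ _, hp.trans ?_, ?_, ?_⟩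
      · refine Finset.sup_le fun x hx => ?_
        by_cases hxq : x = q
        · subst hxq
          exact hle.trans (Finset.le_sup (f := id) (Finset.mem_erase.mpr ⟨Ne.symm hne, hq'⟩))
        · exact Finset.le_sup (f := id) (Finset.mem_erase.mpr ⟨hxq, hx⟩)
      · exact fun x hx => hirr x (Finset.mem_of_mem_erase hx)
      · exact fun x hx => hAQ x (Finset.mem_of_mem_erase hx)
    have hd : down (Q.erase q) ⊆ down Q := by
      intro x hx
      obtain ⟨y, hy, hxy⟩ := (Finset.mem_filter.mp hx).2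
      exact Finset.mem_filter.mpr ⟨Finset.mem_univ _, y, Finset.mem_of_mem_erase hy, hxy⟩
    have := hmin _ hc
    rw [Prod.Lex.toLex_le_toLex, hdown _ hc hd] at this
    have := Finset.card_erase_lt_of_mem hq
    omega
  subst hqq'
  have : b = q := le_antisymm hbq (hqj.trans hjb)
  exact this ▸ hb

end Vale.Agent.P183
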