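import Mathlib

/-!
Definitions for the finite lattice representation problem.
-/

namespace Vale.Agent.P183

/-- `L` is the congruence lattice of a finite nonempty algebra with finitely many operations. -/
def IsRepresentable (L : Type) [Preorder L] : Prop :=
  ∃ (A : Type) (_ : Finite A) (_ : Nonempty A) (k : ℕ) (ar : Fin k → ℕ)
    (op : ∀ i, (Fin (ar i) → A) → A),
    Nonempty (L ≃o {r : Setoid A //
      ∀ i (x y : Fin (ar i) → A), (∀ j, r (x j) (y j)) → r (op i x) (op i y)})

/-- A minimal nontrivial join cover of `p`: every refinement of `Q` covering `p` contains `Q`. -/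
def MinCover {L : Type} [Lattice L] [OrderBot L] (p : L) (Q : Finset L) : Prop :=
  p ≤ Q.sup id ∧ (∀ q ∈ Q, ¬ p ≤ q) ∧
    ∀ A : Finset L, (∀ x ∈ A, ∃ q ∈ Q, x ≤ q) → p ≤ A.sup id → Q ⊆ A

/-- Day's dependency relation `D` between join-irreducible elements. -/
def DRel {L : Type} [Lattice L] [OrderBot L] (p q : L) : Prop :=
  SupIrred p ∧ SupIrred q ∧ ∃ Q : Finset L, MinCover p Q ∧ q ∈ Q

/-- A join-irreducible element that `f` identifies with a strictly smaller element. -/
def Collapsed {L M : Type} [Lattice L] [Lattice M] (f : LatticeHom L M) (p : L) : Prop :=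
  SupIrred p ∧ ∃ x, x < p ∧ f x = f p

/-- The elements collapsed by `f` carry no cycle of the dependency relation. -/
def NoCollapsedCycle {L M : Type} [Lattice L] [OrderBot L] [Lattice M] (f : LatticeHom L M) :
    Prop :=
  ∀ p : L, ¬ Relation.TransGen (fun x y => DRel x y ∧ Collapsed f x ∧ Collapsed f y) p p

end Vale.Agent.P183
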