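import Vale.Agent.P183.Defs

/-!
Day's doubling of the interval `[u, v]` of a bounded lattice.
-/

namespace Vale.Agent.P183

variable {L : Type} [Lattice L] [BoundedOrder L]

/-- The doubling `L[I]` of the interval `I = [u, v]`: the pairs `(x, false)` with `x` not in
`↑u \ ↓v` and the pairs `(x, true)` with `u ≤ x`, ordered componentwise. -/
def Doubling (u v : L) : Type :=
  {p : L × Bool // (p.2 = true → u ≤ p.1) ∧ (u ≤ p.1 → ¬ p.1 ≤ v → p.2 = true)}

namespace Doubling

variable {u v : L}

instance [Finite L] : Finite (Doubling u v) := by unfold Doubling; infer_instance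

instance : Nonempty (Doubling u v) :=
  ⟨⟨(⊥, false), by simp, fun _ h => (h bot_le).elim⟩⟩

instance : PartialOrder (Doubling u v) := by unfold Doubling; infer_instance

open Classical in
noncomputable instance : Lattice (Doubling u v) :=
  { (inferInstance : PartialOrder (Doubling u v)) with
    sup := fun p q => ⟨(p.1.1 ⊔ q.1.1,
        (p.1.2 || q.1.2) || decide (u ≤ p.1.1 ⊔ q.1.1 ∧ ¬ p.1.1 ⊔ q.1.1 ≤ v)),
      by
        intro h
        simp only [Bool.or_eq_true, decide_eq_true_eq] at h
        rcases h with (h | h) | h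
        · exact (p.2.1 h).trans le_sup_left
        · exact (q.2.1 h).trans le_sup_right
        · exact h.1,
      by
        intro h1 h2
        simp [show u ≤ p.1.1 ⊔ q.1.1 from h1, show ¬ p.1.1 ⊔ q.1.1 ≤ v from h2]⟩
    le_sup_left := fun p q => ⟨le_sup_left, Bool.le_iff_imp.2 fun h => by simp [h]⟩
    le_sup_right := fun p q => ⟨le_sup_right, Bool.le_iff_imp.2 fun h => by simp [h]⟩
    sup_le := fun p q r hp hq => ⟨sup_le hp.1 hq.1, Bool.le_iff_imp.2 fun h => by
      simp only [Bool.or_eq_true, decide_eq_true_eq] at h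
      rcases h with (h | h) | h
      · exact Bool.le_iff_imp.1 hp.2 h
      · exact Bool.le_iff_imp.1 hq.2 h
      · exact r.2.2 (h.1.trans (sup_le hp.1 hq.1)) fun hr => h.2 ((sup_le hp.1 hq.1).trans hr)⟩
    inf := fun p q => ⟨(p.1.1 ⊓ q.1.1, (p.1.2 && q.1.2) && decide (u ≤ p.1.1 ⊓ q.1.1)),
      by
        intro h
        simp only [Bool.and_eq_true, decide_eq_true_eq] at h
        exact h.2,
      by
        intro (h1 : u ≤ p.1.1 ⊓ q.1.1) (h2 : ¬ p.1.1 ⊓ q.1.1 ≤ v)
        have hp := p.2.2 (h1.trans inf_le_left) fun h => h2 (inf_le_left.trans h)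
        have hq := q.2.2 (h1.trans inf_le_right) fun h => h2 (inf_le_right.trans h)
        simp [hp, hq, h1]⟩
    inf_le_left := fun p q => ⟨inf_le_left, Bool.le_iff_imp.2 fun h => by
      simp only [Bool.and_eq_true, decide_eq_true_eq] at h
      exact h.1.1⟩
    inf_le_right := fun p q => ⟨inf_le_right, Bool.le_iff_imp.2 fun h => by
      simp only [Bool.and_eq_true, decide_eq_true_eq] at h
      exact h.1.2⟩
    le_inf := fun r p q hp hq => ⟨le_inf hp.1 hq.1, Bool.le_iff_imp.2 fun h => by
      have hu : u ≤ p.1.1 ⊓ q.1.1 := (r.2.1 h).trans (le_inf hp.1 hq.1)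
      simp [hu, Bool.le_iff_imp.1 hp.2 h, Bool.le_iff_imp.1 hq.2 h]⟩ }

instance : BoundedOrder (Doubling u v) where
  bot := ⟨(⊥, false), by simp, fun _ h => (h bot_le).elim⟩
  bot_le p := ⟨bot_le, Bool.false_le _⟩
  top := ⟨(⊤, true), fun _ => le_top, fun _ _ => rfl⟩
  le_top p := ⟨le_top, Bool.le_true _⟩

/-- The projection `L[I] → L`. -/
def proj (u v : L) : LatticeHom (Doubling u v) L where
  toFun p := p.1.1
  map_sup' _ _ := rfl
  map_inf' _ _ := rfl

theorem proj_surjective (u v : L) : Function.Surjective (proj u v) := by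
  classical
  intro x
  exact ⟨⟨(x, decide (u ≤ x)), fun h => of_decide_eq_true h,
    fun h _ => decide_eq_true h⟩, rfl⟩

theorem proj_noCollapsedCycle (u v : L) : NoCollapsedCycle (proj u v) := by
  have key : ∀ p : Doubling u v, Collapsed (proj u v) p → p.1 = (u, true) := by
    rintro p ⟨hirr, x, hxp, hfx⟩
    have hx1 : x.1.1 = p.1.1 := hfx
    have hp2 : p.1.2 = true := by
      by_contra hne
      have hp : p.1.2 = false := by simpa using hne
      have hx : x.1.2 = false := by
        cases hb : x.1.2 with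
        | false => rfl
        | true => exact absurd (Bool.le_iff_imp.1 hxp.le.2 hb) (by simp [hp])
      exact hxp.ne (Subtype.ext (Prod.ext hx1 (hx.trans hp.symm)))
    let g : Doubling u v := ⟨(u, true), fun _ => le_rfl, fun _ _ => rfl⟩
    have hup : u ≤ p.1.1 := p.2.1 hp2
    have hgx : g ⊔ x = p := by
      refine le_antisymm (sup_le ⟨hup, Bool.le_iff_imp.2 fun _ => hp2⟩ hxp.le) ?_
      exact ⟨hx1.ge.trans (le_sup_right (a := g) (b := x)).1,
        Bool.le_iff_imp.2 fun _ => Bool.le_iff_imp.1 (le_sup_left (a := g) (b := x)).2 rfl⟩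
    rcases hirr.2 hgx with h | h
    · exact (congrArg Subtype.val h).symm
    · exact absurd h hxp.ne
  intro p hp
  obtain ⟨c, ⟨⟨-, -, Q, hQ, hcQ⟩, hpc, hcc⟩, -⟩ := Relation.TransGen.head'_iff.1 hp
  have hEq : p = c := Subtype.ext ((key p hpc).trans (key c hcc).symm)
  exact hQ.2.1 c hcQ hEq.le

end Doubling

end Vale.Agent.P183
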