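import Vale.Agent.P183.Defs

/-!
Gadgets: coloured sets with two ends, and the series-parallel composition used in the
representation of lattices.
-/

namespace Vale.Agent.P183

/-- A finite set with two ends and a monotone family of equivalences indexed by `L`. -/
structure Gad (L : Type) [Preorder L] where
  /-- the points -/
  pt : Type
  finite_pt : Finite pt
  /-- the first end -/
  e0 : pt
  /-- the second end -/
  e1 : pt
  /-- the equivalences -/
  rel : L → Setoid pt
  mono : Monotone rel

variable {L : Type}

/-- A map between gadgets compatible with all the equivalences. -/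
structure GHom [Preorder L] (G H : Gad L) where
  /-- the map -/
  map : G.pt → H.pt
  pres : ∀ a x y, G.rel a x y → H.rel a (map x) (map y)

namespace GHom

variable [Preorder L]

/-- The identity. -/
def id' (G : Gad L) : GHom G G := ⟨fun x => x, fun _ _ _ h => h⟩

/-- Composition. -/
def comp {G H K : Gad L} (g : GHom H K) (f : GHom G H) : GHom G K :=
  ⟨fun x => g.map (f.map x), fun a x y h => g.pres a _ _ (f.pres a x y h)⟩

/-- A constant map. -/
def const (G : Gad L) {H : Gad L} (z : H.pt) : GHom G H :=
  ⟨fun _ => z, fun a _ _ _ => (H.rel a).refl' z⟩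

/-- Transport along an equality. -/
def cast {G H : Gad L} (h : G = H) : GHom G H := h ▸ id' G

theorem cast_e0 {G H : Gad L} (h : G = H) : (cast h).map G.e0 = H.e0 := by subst h; rfl

theorem cast_e1 {G H : Gad L} (h : G = H) : (cast h).map G.e1 = H.e1 := by subst h; rfl

theorem cast_cast {G H : Gad L} (h : G = H) (h' : H = G) (z : H.pt) :
    (cast h).map ((cast h').map z) = z := by subst h; rfl

end GHom

theorem Gad.rel_bot [Preorder L] [OrderBot L] (G : Gad L) {a : L} {x y : G.pt}
    (h : G.rel ⊥ x y) : G.rel a x y := G.mono (OrderBot.bot_le a) h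

/-- The parallel paths of a composite gadget and their letters. -/
structure Shape (L : Type) where
  /-- the paths -/
  J : Type
  finite_J : Finite J
  /-- the number of slots of a path -/
  len : J → ℕ
  /-- the letter in a slot -/
  letter : (j : J) → Fin (len j) → L

/-- Points of a composite gadget. In each slot there is a forward and a backward twin. -/
inductive Shape.Point [Preorder L] (S : Shape L)
    (C : (j : S.J) → Fin (S.len j) → Gad L) : Type
  | start
  | stop
  | junc (j : S.J) (i : Fin (S.len j + 1))
  | inner (j : S.J) (i : Fin (S.len j)) (b : Bool) (x : (C j i).pt)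

/-- The generating pairs of the equivalence of colour `a`. -/
inductive Shape.Link [Preorder L] (S : Shape L) (C : (j : S.J) → Fin (S.len j) → Gad L) (p a : L) :
    S.Point C → S.Point C → Prop
  | first (j : S.J) : Link S C p a .start (.junc j 0)
  | last (j : S.J) : Link S C p a (.junc j (Fin.last _)) .stop
  | left (j : S.J) (i : Fin (S.len j)) :
      Link S C p a (.junc j i.castSucc) (.inner j i true (C j i).e0)
  | middle (j : S.J) (i : Fin (S.len j)) :
      Link S C p a (.inner j i true (C j i).e1)
        (.inner j i false (C j i).e1)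
  | right (j : S.J) (i : Fin (S.len j)) :
      Link S C p a (.inner j i false (C j i).e0) (.junc j i.succ)
  | child (j : S.J) (i : Fin (S.len j)) (b : Bool) (x y : (C j i).pt)
      (h : (C j i).rel a x y) :
      Link S C p a (.inner j i b x) (.inner j i b y)
  | edge (h : p ≤ a) : Link S C p a .start .stop

theorem Shape.finite_point [Preorder L] (S : Shape L) (C : (j : S.J) → Fin (S.len j) → Gad L) :
    Finite (S.Point C) := by
  haveI := S.finite_J
  haveI : ∀ j i, Finite (C j i).pt := fun j i => (C j i).finite_pt
  apply Finite.of_surjective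
    (fun z : (Unit ⊕ Unit) ⊕ ((Σ j, Fin (S.len j + 1)) ⊕
        (Σ j, Σ i : Fin (S.len j), Bool × (C j i).pt)) =>
      match z with
      | .inl (.inl _) => Shape.Point.start
      | .inl (.inr _) => Shape.Point.stop
      | .inr (.inl ⟨j, i⟩) => Shape.Point.junc j i
      | .inr (.inr ⟨j, i, b, x⟩) => Shape.Point.inner j i b x)
  intro z
  cases z with
  | start => exact ⟨.inl (.inl ()), rfl⟩
  | stop => exact ⟨.inl (.inr ()), rfl⟩
  | junc j i => exact ⟨.inr (.inl ⟨j, i⟩), rfl⟩
  | inner j i b x => exact ⟨.inr (.inr ⟨j, i, b, x⟩), rfl⟩

theorem eqvGen_le {α : Type} {R : α → α → Prop} {t : Setoid α} (h : ∀ x y, R x y → t x y) :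
    Relation.EqvGen.setoid R ≤ t := by
  intro x y hxy
  induction hxy with
  | rel x y hr => exact h x y hr
  | refl x => exact t.refl' x
  | symm x y _ ih => exact t.symm' ih
  | trans x y z _ _ ih ih' => exact t.trans' ih ih'

variable [Preorder L]

/-- The composite gadget of colour `p`. -/
def Shape.glueWith (S : Shape L) (C : (j : S.J) → Fin (S.len j) → Gad L) (p : L) : Gad L where
  pt := S.Point C
  finite_pt := S.finite_point C
  e0 := .start
  e1 := .stop
  rel a := Relation.EqvGen.setoid (S.Link C p a)
  mono a b hab := eqvGen_le fun x y h => Relation.EqvGen.rel _ _ (by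
    cases h with
    | first j => exact .first j
    | last j => exact .last j
    | left j i => exact .left j i
    | middle j i => exact .middle j i
    | right j i => exact .right j i
    | child j i b x y h => exact .child j i b x y ((C _ _).mono hab h)
    | edge h => exact .edge (h.trans hab))

/-- The children of the composite gadget built from the family `ch`. -/
abbrev Shape.kids (S : Shape L) (ch : L → Gad L) : (j : S.J) → Fin (S.len j) → Gad L :=
  fun j i => ch (S.letter j i)

/-- The composite gadget with children taken from the family `ch`. -/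
abbrev Shape.glue (S : Shape L) (ch : L → Gad L) (p : L) : Gad L := S.glueWith (S.kids ch) p

theorem Shape.glue_congr (S : Shape L) {ch ch' : L → Gad L} (p : L)
    (h : ∀ j i, ch (S.letter j i) = ch' (S.letter j i)) : S.glue ch p = S.glue ch' p := by
  have : S.kids ch = S.kids ch' := funext fun j => funext fun i => h j i
  show S.glueWith (S.kids ch) p = S.glueWith (S.kids ch') p
  rw [this]

variable {S : Shape L} {ch : L → Gad L} {p : L}

theorem Shape.link {a : L} {x y : S.Point (S.kids ch)} (h : S.Link (S.kids ch) p a x y) :
    (S.glue ch p).rel a x y := Relation.EqvGen.rel _ _ h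

/-- The inclusion of a twin. -/
def Shape.embed (j : S.J) (i : Fin (S.len j)) (b : Bool) :
    GHom (ch (S.letter j i)) (S.glue ch p) :=
  ⟨fun x => .inner j i b x, fun _ x y h => Shape.link (Shape.Link.child (C := S.kids ch) j i b x y h)⟩

/-- The underlying function of a map out of a composite gadget. -/
def Shape.liftFun {T : Gad L} (u v : T.pt) (y : S.J → ℕ → T.pt)
    (f g : (j : S.J) → (i : Fin (S.len j)) → GHom (ch (S.letter j i)) T) : S.Point (S.kids ch) → T.pt
  | .start => u
  | .stop => v
  | .junc j i => y j i.1
  | .inner j i true x => (f j i).map x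
  | .inner j i false x => (g j i).map x

/-- The maps out of a composite gadget. -/
def Shape.lift [OrderBot L] {T : Gad L} (u v : T.pt) (y : S.J → ℕ → T.pt)
    (f g : (j : S.J) → (i : Fin (S.len j)) → GHom (ch (S.letter j i)) T)
    (h0 : ∀ j, T.rel ⊥ u (y j 0)) (h1 : ∀ j, T.rel ⊥ (y j (S.len j)) v)
    (hedge : ∀ a, p ≤ a → T.rel a u v)
    (hl : ∀ j i, T.rel ⊥ (y j i.1) ((f j i).map (ch (S.letter j i)).e0))
    (hm : ∀ j i, T.rel ⊥ ((f j i).map (ch (S.letter j i)).e1)
      ((g j i).map (ch (S.letter j i)).e1))
    (hr : ∀ j i, T.rel ⊥ ((g j i).map (ch (S.letter j i)).e0) (y j (i.1 + 1))) :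
    GHom (S.glue ch p) T where
  map := S.liftFun u v y f g
  pres a := by
    suffices Relation.EqvGen.setoid (S.Link (S.kids ch) p a) ≤ Setoid.comap (S.liftFun u v y f g) (T.rel a)
      from fun x y h => this h
    refine eqvGen_le fun x z h => ?_
    show T.rel a (S.liftFun u v y f g x) (S.liftFun u v y f g z)
    cases h with
    | first j => exact T.rel_bot (h0 j)
    | last j => exact T.rel_bot (h1 j)
    | left j i => exact T.rel_bot (hl j i)
    | middle j i => exact T.rel_bot (hm j i)
    | right j i => exact T.rel_bot (hr j i)
    | child j i b x y h =>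
      cases b
      · exact (g j i).pres a x y h
      · exact (f j i).pres a x y h
    | edge h => exact hedge a h

end Vale.Agent.P183
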