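import Vale.Agent.P183.Compose

/-!
Separation in composite gadgets: folding a slot onto its letter, or a pair of slots with the
same letter, separates unrelated points.
-/

namespace Vale.Agent.P183

variable {L : Type} [Lattice L] [OrderBot L] {Gf : L → Gad L} {S : Shape L} {p : L}

/-- The hypotheses on the paths used for separation. -/
structure Shape.Good (S : Shape L) (Gf : L → Gad L) (p : L) : Prop where
  irred : SupIrred p
  self : Gf p = S.glue Gf p
  letter_irred : ∀ j i, SupIrred (S.letter j i)
  sep : ∀ j i, SepProp Gf (Gf (S.letter j i))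
  cut : ∀ j i, CutProp (Gf (S.letter j i)) (S.letter j i)
  twin : ∀ j l, ∃ l', l' ≠ l ∧ S.letter j l' = S.letter j l
  spread : ∀ j (i k : ℕ), i ≤ k → k ≤ S.len j → ∀ l : Fin (S.len j), i ≤ l.1 → l.1 < k →
    (∀ l', S.letter j l' = S.letter j l → i ≤ l'.1 ∧ l'.1 < k) →
      ∀ m, ∃ m' : Fin (S.len j), S.letter j m' = S.letter j m ∧ i ≤ m'.1 ∧ m'.1 < k

/-- Folding one slot onto the gadget of its letter. -/
theorem Shape.exists_fold (j : S.J) (l : Fin (S.len j)) :
    ∃ F : GHom (S.glue Gf p) (Gf (S.letter j l)),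
      (∀ b x, F.map (.inner j l b x) = x) ∧
      F.map .start = (Gf (S.letter j l)).e0 ∧ F.map .stop = (Gf (S.letter j l)).e0 ∧
      (∀ j' i, F.map (.junc j' i) = (Gf (S.letter j l)).e0) ∧
      (∀ j' i b x, ¬ (j' = j ∧ i.1 = l.1) → F.map (.inner j' i b x) = (Gf (S.letter j l)).e0) := by
  classical
  let T := Gf (S.letter j l)
  have hlet : ∀ j' (i : Fin (S.len j')), j' = j ∧ i.1 = l.1 → S.letter j' i = S.letter j l := by
    rintro j' i ⟨rfl, hi⟩
    rw [Fin.ext hi]
  let f : (j' : S.J) → (i : Fin (S.len j')) → GHom (Gf (S.letter j' i)) T := fun j' i =>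
    if h : j' = j ∧ i.1 = l.1 then GHom.cast (congrArg Gf (hlet j' i h)) else GHom.const _ T.e0
  refine ⟨S.lift T.e0 T.e0 (fun _ _ => T.e0) f f (fun _ => (T.rel ⊥).refl' _)
    (fun _ => (T.rel ⊥).refl' _) (fun a _ => (T.rel a).refl' _) ?_
    (fun _ _ => (T.rel ⊥).refl' _) ?_, ?_, rfl, rfl, fun _ _ => rfl, ?_⟩
  · intro j' i
    simp only [f]
    split
    · rw [GHom.cast_e0]
    · exact (T.rel ⊥).refl' _
  · intro j' i
    simp only [f]
    split
    · rw [GHom.cast_e0]
    · exact (T.rel ⊥).refl' _
  · intro b x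
    cases b <;>
    · show (f j l).map x = x
      simp only [f, and_self, dite_true]
      rfl
  · intro j' i b x h
    cases b <;>
    · show (f j' i).map x = T.e0
      simp only [f, dif_neg h]
      rfl

/-- Folding the segment between two slots with the same letter. -/
theorem Shape.exists_segment (j : S.J) (l m : Fin (S.len j)) (hlm : l.1 < m.1)
    (he : S.letter j m = S.letter j l) :
    ∃ F : GHom (S.glue Gf p) (Gf (S.letter j l)),
      (∀ x, F.map (.inner j l true x) = x) ∧
      (∀ x, F.map (.inner j l false x) = (Gf (S.letter j l)).e1) ∧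
      (∀ x, F.map (.inner j m true x) = (Gf (S.letter j l)).e1) ∧
      (∀ x, F.map (.inner j m false x) = (GHom.cast (congrArg Gf he)).map x) ∧
      F.map .start = (Gf (S.letter j l)).e0 ∧ F.map .stop = (Gf (S.letter j l)).e0 ∧
      (∀ j' i, j' ≠ j → F.map (.junc j' i) = (Gf (S.letter j l)).e0) ∧
      (∀ i, l.1 < i.1 → i.1 ≤ m.1 → F.map (.junc j i) = (Gf (S.letter j l)).e1) ∧
      (∀ i, i.1 ≤ l.1 ∨ m.1 < i.1 → F.map (.junc j i) = (Gf (S.letter j l)).e0) := by
  classical
  let T := Gf (S.letter j l)
  have hlet : ∀ j' (i : Fin (S.len j')), j' = j ∧ i.1 = l.1 → S.letter j' i = S.letter j l := by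
    rintro j' i ⟨rfl, hi⟩
    rw [Fin.ext hi]
  have hlet' : ∀ j' (i : Fin (S.len j')), j' = j ∧ i.1 = m.1 → S.letter j' i = S.letter j l := by
    rintro j' i ⟨rfl, hi⟩
    rw [Fin.ext hi, he]
  let y : S.J → ℕ → T.pt := fun j' n => if j' = j ∧ l.1 < n ∧ n ≤ m.1 then T.e1 else T.e0
  let f : (j' : S.J) → (i : Fin (S.len j')) → GHom (Gf (S.letter j' i)) T := fun j' i =>
    if h : j' = j ∧ i.1 = l.1 then GHom.cast (congrArg Gf (hlet j' i h))
    else if j' = j ∧ l.1 < i.1 ∧ i.1 ≤ m.1 then GHom.const _ T.e1 else GHom.const _ T.e0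
  let g : (j' : S.J) → (i : Fin (S.len j')) → GHom (Gf (S.letter j' i)) T := fun j' i =>
    if h : j' = j ∧ i.1 = m.1 then GHom.cast (congrArg Gf (hlet' j' i h))
    else if j' = j ∧ l.1 ≤ i.1 ∧ i.1 < m.1 then GHom.const _ T.e1 else GHom.const _ T.e0
  have fl : ∀ j' i, (f j' i).map (Gf (S.letter j' i)).e0 = y j' i.1 := by
    intro j' i
    by_cases h : j' = j ∧ i.1 = l.1
    · simp only [f, dif_pos h, y, GHom.cast_e0]
      rw [if_neg (by omega)]
    · simp only [f, dif_neg h, y]
      split <;> rfl
  have gr : ∀ j' i, (g j' i).map (Gf (S.letter j' i)).e0 = y j' (i.1 + 1) := by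
    intro j' i
    by_cases h : j' = j ∧ i.1 = m.1
    · simp only [g, dif_pos h, y, GHom.cast_e0]
      rw [if_neg (by omega)]
    · simp only [g, dif_neg h, y]
      by_cases h1 : j' = j ∧ l.1 ≤ i.1 ∧ i.1 < m.1
      · rw [if_pos h1, if_pos ⟨h1.1, by omega, by omega⟩]; rfl
      · rw [if_neg h1, if_neg]
        · rfl
        · rintro ⟨h2, h3, h4⟩
          exact h1 ⟨h2, by omega, by omega⟩
  have fm : ∀ j' i, (f j' i).map (Gf (S.letter j' i)).e1 =
      (g j' i).map (Gf (S.letter j' i)).e1 := by
    intro j' i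
    by_cases h : j' = j ∧ i.1 = l.1
    · have h' : ¬ (j' = j ∧ i.1 = m.1) := by omega
      simp only [f, g, dif_pos h, dif_neg h', GHom.cast_e1]
      rw [if_pos ⟨h.1, by omega, by omega⟩]
      rfl
    · by_cases h' : j' = j ∧ i.1 = m.1
      · simp only [f, g, dif_neg h, dif_pos h', GHom.cast_e1]
        rw [if_pos ⟨h'.1, by omega, by omega⟩]
        rfl
      · simp only [f, g, dif_neg h, dif_neg h']
        by_cases h1 : j' = j ∧ l.1 < i.1 ∧ i.1 ≤ m.1
        · rw [if_pos h1, if_pos ⟨h1.1, by omega, by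
            have : i.1 ≠ m.1 := fun e => h' ⟨h1.1, e⟩
            omega⟩]
        · rw [if_neg h1, if_neg]
          · rintro ⟨h2, h3, h4⟩
            have : i.1 ≠ l.1 := fun e => h ⟨h2, e⟩
            exact h1 ⟨h2, by omega, by omega⟩
  refine ⟨S.lift T.e0 T.e0 y f g ?_ ?_ (fun a _ => (T.rel a).refl' _) ?_ ?_ ?_,
    ?_, ?_, ?_, ?_, rfl, rfl, ?_, ?_, ?_⟩
  · intro j'
    simp [y]
  · intro j'
    simp only [y]
    split
    · rename_i h
      obtain ⟨rfl, h2, h3⟩ := h
      exact absurd h3 (by have := m.2; omega)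
    · exact (T.rel ⊥).refl' _
  · intro j' i; rw [fl]
  · intro j' i; rw [fm]
  · intro j' i; rw [gr]
  · intro x
    show (f j l).map x = x
    simp only [f, and_self, dite_true]
    rfl
  · intro x
    show (g j l).map x = T.e1
    have h' : ¬ (j = j ∧ l.1 = m.1) := by omega
    simp only [g, dif_neg h']
    rw [if_pos ⟨trivial, le_rfl, hlm⟩]
    rfl
  · intro x
    show (f j m).map x = T.e1
    have h' : ¬ (j = j ∧ m.1 = l.1) := by omega
    simp only [f, dif_neg h']
    rw [if_pos ⟨trivial, hlm, le_rfl⟩]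
    rfl
  · intro x
    show (g j m).map x = _
    simp only [g, and_self, dite_true]
  · intro j' i hj
    show y j' i.1 = T.e0
    simp [y, hj]
  · intro i h1 h2
    show y j i.1 = T.e1
    simp [y, h1, h2]
  · intro i h
    show y j i.1 = T.e0
    simp only [y]
    rw [if_neg]
    omega

namespace Shape.Good

variable (hG : S.Good Gf p) (a : L)

include hG

omit a in
/-- A segment whose letters are all below `a` is related. -/
theorem rel_segment {a : L} (j : S.J) (i : Fin (S.len j + 1)) :
    ∀ n (k : Fin (S.len j + 1)), k.1 = i.1 + n →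
      (∀ l : Fin (S.len j), i.1 ≤ l.1 → l.1 < k.1 → S.letter j l ≤ a) →
      (S.glue Gf p).rel a (.junc j i) (.junc j k) := by
  intro n
  induction n with
  | zero =>
    intro k hk _
    rw [show k = i from Fin.ext hk]
    exact Setoid.refl' _ _
  | succ n ih =>
    intro k hk hgood
    have hn : i.1 + n < S.len j := by omega
    let l : Fin (S.len j) := ⟨i.1 + n, hn⟩
    have h1 := ih l.castSucc rfl (fun m hm hm' => hgood m hm (by
      have : m.1 < i.1 + n := hm'
      omega))
    have hends := (hG.cut j l a).mpr (hgood l (by simp [l]) (by simp [l]; omega))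
    have e : k = l.succ := Fin.ext (by simp [l]; omega)
    rw [e]
    let R := (S.glue Gf p).rel a
    exact R.trans' h1 (R.trans' (Shape.link (.left j l))
      (R.trans' ((Shape.embed j l true).pres a _ _ hends)
        (R.trans' (Shape.link (.middle j l))
          (R.trans' (R.symm' ((Shape.embed j l false).pres a _ _ hends))
            (Shape.link (.right j l))))))

theorem rel_junc {a : L} (j : S.J) {i k : Fin (S.len j + 1)} (hik : i ≤ k)
    (h : ∀ l : Fin (S.len j), i.1 ≤ l.1 → l.1 < k.1 → S.letter j l ≤ a) :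
    (S.glue Gf p).rel a (.junc j i) (.junc j k) :=
  hG.rel_segment j i (k.1 - i.1) k (by have : i.1 ≤ k.1 := hik; omega) h

/-- An end of the composite. -/
def End' (x : S.Point (S.kids Gf)) : Prop := x = .start ∨ x = .stop

omit hG in
theorem ends_case {x y : S.Point (S.kids Gf)} (hG : S.Good Gf p) (hx : x = .start ∨ x = .stop)
    (hy : y = .start ∨ y = .stop) :
    (S.glue Gf p).rel a x y ∨ Witness Gf a (S.glue Gf p) x y := by
  by_cases hpa : p ≤ a
  · have h : (S.glue Gf p).rel a .start .stop := Shape.link (.edge hpa)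
    rcases hx with rfl | rfl <;> rcases hy with rfl | rfl
    · exact Or.inl (Setoid.refl' _ _)
    · exact Or.inl h
    · exact Or.inl (Setoid.symm' _ h)
    · exact Or.inl (Setoid.refl' _ _)
  · have h : Witness Gf a (S.glue Gf p) .start .stop := by
      refine Witness.of_ends hG.irred hpa (GHom.cast hG.self.symm) ?_ ?_
      · have := GHom.cast_e0 hG.self.symm
        rw [show (GHom.cast hG.self.symm).map Shape.Point.start = (Gf p).e0 from this]
      · have := GHom.cast_e1 hG.self.symm
        rw [show (GHom.cast hG.self.symm).map Shape.Point.stop = (Gf p).e1 from this]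
    rcases hx with rfl | rfl <;> rcases hy with rfl | rfl
    · exact Or.inl (Setoid.refl' _ _)
    · exact Or.inr h
    · exact Or.inr h.symm
    · exact Or.inl (Setoid.refl' _ _)

/-- A bad letter occurring on both sides of a junction separates it from what lies outside. -/
theorem witness_of_straddle (j : S.J) (l m : Fin (S.len j)) (hlm : l.1 < m.1)
    (he : S.letter j m = S.letter j l) (hbad : ¬ S.letter j l ≤ a)
    (i : Fin (S.len j + 1)) (h1 : l.1 < i.1) (h2 : i.1 ≤ m.1) (w : S.Point (S.kids Gf))
    (hw : w = .start ∨ w = .stop ∨ (∃ j' k, j' ≠ j ∧ w = .junc j' k) ∨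
      ∃ k : Fin (S.len j + 1), (k.1 ≤ l.1 ∨ m.1 < k.1) ∧ w = .junc j k) :
    Witness Gf a (S.glue Gf p) w (.junc j i) := by
  obtain ⟨F, -, -, -, -, hs, ht, hj, hin, hout⟩ :=
    Shape.exists_segment (Gf := Gf) (p := p) j l m hlm he
  refine Witness.of_ends (hG.letter_irred j l) hbad F ?_ ?_
  · rcases hw with rfl | rfl | ⟨j', k, hne, rfl⟩ | ⟨k, hk, rfl⟩
    · rw [hs]
    · rw [ht]
    · rw [hj j' k hne]
    · rw [hout k hk]
  · rw [hin i h1 h2]

/-- A junction is separated from everything off its path, or related to an end. -/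
theorem junc_off (j : S.J) (i : Fin (S.len j + 1)) (w : S.Point (S.kids Gf))
    (hw : w = .start ∨ w = .stop ∨ ∃ j' k, j' ≠ j ∧ w = .junc j' k) :
    Witness Gf a (S.glue Gf p) w (.junc j i) ∨ (S.glue Gf p).rel a (.junc j i) .start ∨
      (S.glue Gf p).rel a (.junc j i) .stop := by
  have hw' : ∀ l m : Fin (S.len j), w = .start ∨ w = .stop ∨
      (∃ j' k, j' ≠ j ∧ w = .junc j' k) ∨
      ∃ k : Fin (S.len j + 1), (k.1 ≤ l.1 ∨ m.1 < k.1) ∧ w = .junc j k := fun l m => by
    rcases hw with h | h | h
    · exact Or.inl h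
    · exact Or.inr (Or.inl h)
    · exact Or.inr (Or.inr (Or.inl h))
  by_cases hleft : ∀ l : Fin (S.len j), l.1 < i.1 → S.letter j l ≤ a
  · refine Or.inr (Or.inl (Setoid.symm' _ (Setoid.trans' _ (Shape.link (.first j)) ?_)))
    exact hG.rel_junc j (Fin.zero_le i) fun l _ hl => hleft l hl
  by_cases hright : ∀ l : Fin (S.len j), i.1 ≤ l.1 → S.letter j l ≤ a
  · refine Or.inr (Or.inr (Setoid.trans' _ ?_ (Shape.link (.last j))))
    exact hG.rel_junc j (Fin.le_last i) fun l hl _ => hright l hl
  push Not at hleft hright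
  obtain ⟨l, hl, hlbad⟩ := hleft
  obtain ⟨m, hm, hmbad⟩ := hright
  refine Or.inl ?_
  by_cases hall : ∀ l', S.letter j l' = S.letter j l → l'.1 < i.1
  · obtain ⟨m', hm', -, hlt⟩ := hG.spread j 0 i.1 (Nat.zero_le _) (Nat.lt_succ_iff.mp i.2) l
      (Nat.zero_le _) hl (fun l' h => ⟨Nat.zero_le _, hall l' h⟩) m
    exact hG.witness_of_straddle a j m' m (by omega) hm'.symm (hm' ▸ hmbad) i hlt hm w
      (hw' m' m)
  · push Not at hall
    obtain ⟨l', hl', hge⟩ := hall
    exact hG.witness_of_straddle a j l l' (by omega) hl' hlbad i hl hge w (hw' l l')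

/-- Two junctions on one path. -/
theorem junc_same (j : S.J) (i k : Fin (S.len j + 1)) (hik : i ≤ k) :
    (S.glue Gf p).rel a (.junc j i) (.junc j k) ∨
      Witness Gf a (S.glue Gf p) (.junc j i) (.junc j k) := by
  by_cases hgood : ∀ l : Fin (S.len j), i.1 ≤ l.1 → l.1 < k.1 → S.letter j l ≤ a
  · exact Or.inl (hG.rel_junc j hik hgood)
  push Not at hgood
  obtain ⟨l, hl1, hl2, hlbad⟩ := hgood
  have sepr : ∀ l : Fin (S.len j), i.1 ≤ l.1 → l.1 < k.1 → ¬ S.letter j l ≤ a →
      ∀ l', S.letter j l' = S.letter j l → ¬ (i.1 ≤ l'.1 ∧ l'.1 < k.1) →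
        Witness Gf a (S.glue Gf p) (.junc j i) (.junc j k) := by
    intro l h1 h2 hb l' he hout
    by_cases hc : l'.1 < i.1
    · refine (hG.witness_of_straddle a j l' l (by omega) he.symm (he ▸ hb) i hc h1 _ ?_).symm
      exact Or.inr (Or.inr (Or.inr ⟨k, Or.inr h2, rfl⟩))
    · refine hG.witness_of_straddle a j l l' (by omega) he hb k h2 (by omega) _ ?_
      exact Or.inr (Or.inr (Or.inr ⟨i, Or.inl h1, rfl⟩))
  by_cases hall : ∀ l', S.letter j l' = S.letter j l → i.1 ≤ l'.1 ∧ l'.1 < k.1
  · by_cases hout : ∀ m : Fin (S.len j), ¬ (i.1 ≤ m.1 ∧ m.1 < k.1) → S.letter j m ≤ a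
    · have hi : (S.glue Gf p).rel a .start (.junc j i) :=
        Setoid.trans' _ (Shape.link (.first j))
          (hG.rel_junc j (Fin.zero_le i) fun m _ hm => hout m (by omega))
      have hk : (S.glue Gf p).rel a (.junc j k) .stop :=
        Setoid.trans' _ (hG.rel_junc j (Fin.le_last k) fun m hm _ => hout m (by omega))
          (Shape.link (.last j))
      rcases ends_case a hG (Or.inl rfl) (Or.inr rfl) with h | h
      · exact Or.inl (Setoid.trans' _ (Setoid.symm' _ hi)
          (Setoid.trans' _ h (Setoid.symm' _ hk)))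
      · exact Or.inr (h.congr (Setoid.symm' _ hi) hk)
    · push Not at hout
      obtain ⟨m, hmout, hmbad⟩ := hout
      obtain ⟨m', hm', h1, h2⟩ := hG.spread j i.1 k.1 hik (Nat.lt_succ_iff.mp k.2) l hl1 hl2
        hall m
      exact Or.inr (sepr m' h1 h2 (hm' ▸ hmbad) m hm'.symm (fun h => by
        have := hmout h.1
        omega))
  · push Not at hall
    obtain ⟨l', he, hout⟩ := hall
    exact Or.inr (sepr l hl1 hl2 hlbad l' he (fun h => by have := hout h.1; omega))

/-- Points that are junctions or ends. -/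
def IsFrame : S.Point (S.kids Gf) → Prop
  | .inner _ _ _ _ => False
  | _ => True

theorem frame_case {u v : S.Point (S.kids Gf)} (hu : IsFrame u) (hv : IsFrame v) :
    (S.glue Gf p).rel a u v ∨ Witness Gf a (S.glue Gf p) u v := by
  have endsJ : ∀ x, (x = Shape.Point.start ∨ x = Shape.Point.stop) → ∀ j i,
      (S.glue Gf p).rel a x (.junc j i) ∨ Witness Gf a (S.glue Gf p) x (.junc j i) := by
    intro x hx j i
    rcases hG.junc_off a j i x (hx.elim Or.inl fun h => Or.inr (Or.inl h)) with h | h | h
    · exact Or.inr h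
    · rcases ends_case a hG hx (Or.inl rfl) with h' | h'
      · exact Or.inl (Setoid.trans' _ h' (Setoid.symm' _ h))
      · exact Or.inr (h'.congr (Setoid.refl' _ _) h)
    · rcases ends_case a hG hx (Or.inr rfl) with h' | h'
      · exact Or.inl (Setoid.trans' _ h' (Setoid.symm' _ h))
      · exact Or.inr (h'.congr (Setoid.refl' _ _) h)
  cases u with
  | inner j i b x => exact hu.elim
  | start =>
    cases v with
    | inner j i b x => exact hv.elim
    | start => exact ends_case a hG (Or.inl rfl) (Or.inl rfl)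
    | stop => exact ends_case a hG (Or.inl rfl) (Or.inr rfl)
    | junc j i => exact endsJ _ (Or.inl rfl) j i
  | stop =>
    cases v with
    | inner j i b x => exact hv.elim
    | start => exact ends_case a hG (Or.inr rfl) (Or.inl rfl)
    | stop => exact ends_case a hG (Or.inr rfl) (Or.inr rfl)
    | junc j i => exact endsJ _ (Or.inr rfl) j i
  | junc j i =>
    cases v with
    | inner j i b x => exact hv.elim
    | start => exact (endsJ _ (Or.inl rfl) j i).imp (Setoid.symm' _) Witness.symm
    | stop => exact (endsJ _ (Or.inr rfl) j i).imp (Setoid.symm' _) Witness.symm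
    | junc j' k =>
      by_cases hjj : j' = j
      · subst hjj
        rcases le_total i k with h | h
        · exact hG.junc_same a j' i k h
        · exact (hG.junc_same a j' k i h).imp (Setoid.symm' _) Witness.symm
      · rcases hG.junc_off a j i (.junc j' k) (Or.inr (Or.inr ⟨j', k, hjj, rfl⟩)) with h | h | h
        · exact Or.inr h.symm
        · rcases endsJ _ (Or.inl rfl) j' k with h' | h'
          · exact Or.inl (Setoid.trans' _ h h')
          · exact Or.inr (h'.congr h (Setoid.refl' _ _))
        · rcases endsJ _ (Or.inr rfl) j' k with h' | h'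
          · exact Or.inl (Setoid.trans' _ h h')
          · exact Or.inr (h'.congr h (Setoid.refl' _ _))

/-- Two points in one slot. -/
theorem same_slot (j : S.J) (l : Fin (S.len j)) (b b' : Bool)
    (x y : (Gf (S.letter j l)).pt) :
    (S.glue Gf p).rel a (.inner j l b x) (.inner j l b' y) ∨
      Witness Gf a (S.glue Gf p) (.inner j l b x) (.inner j l b' y) := by
  obtain ⟨F, hF, -, -, -, -⟩ := Shape.exists_fold (Gf := Gf) (p := p) j l
  rcases hG.sep j l a x y with hxy | hw
  swap
  · exact Or.inr (Witness.push F (by rw [hF, hF]; exact hw))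
  by_cases hb : b = b'
  · subst hb
    exact Or.inl ((Shape.embed (p := p) j l b).pres a x y hxy)
  rcases hG.sep j l a x (Gf (S.letter j l)).e1 with hx | hw
  · have hy := Setoid.trans' _ (Setoid.symm' _ hxy) hx
    refine Or.inl (Setoid.trans' _ ((Shape.embed (p := p) j l b).pres a _ _ hx)
      (Setoid.trans' _ ?_ ((Shape.embed (p := p) j l b').pres a _ _ (Setoid.symm' _ hy))))
    cases b <;> cases b' <;> first | exact absurd rfl hb | skip
    · exact Setoid.symm' _ (Shape.link (.middle j l))
    · exact Shape.link (.middle j l)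
  -- the twin that is folded away goes to the far end
  have key : ∀ z z', Witness Gf a (Gf (S.letter j l)) z (Gf (S.letter j l)).e1 →
      Witness Gf a (Gf (S.letter j l)) z' (Gf (S.letter j l)).e1 →
      Witness Gf a (S.glue Gf p) (.inner j l true z) (.inner j l false z') := by
    intro z z' hz hz'
    obtain ⟨l', hne, he⟩ := hG.twin j l
    rcases Nat.lt_or_ge l.1 l'.1 with hlt | hge
    · obtain ⟨G, h1, h2, -⟩ := Shape.exists_segment (Gf := Gf) (p := p) j l l' hlt he
      exact Witness.push G (by rw [h1, h2]; exact hz)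
    · have hlt : l'.1 < l.1 := by
        have : l'.1 ≠ l.1 := fun e => hne (Fin.ext e)
        omega
      obtain ⟨G, -, -, h3, h4, -⟩ := Shape.exists_segment (Gf := Gf) (p := p) j l' l hlt he.symm
      refine Witness.push G ?_
      rw [h3, h4]
      let C : GHom (Gf (S.letter j l')) (Gf (S.letter j l)) := GHom.cast (congrArg Gf he)
      refine Witness.push C ?_
      have e1 : C.map (Gf (S.letter j l')).e1 = (Gf (S.letter j l)).e1 := GHom.cast_e1 _
      have e2 : ∀ z : (Gf (S.letter j l)).pt,
          C.map ((GHom.cast (congrArg Gf he.symm)).map z) = z := GHom.cast_cast _ _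
      rw [e1, e2]
      exact hz'.symm
  have hy : Witness Gf a (Gf (S.letter j l)) y (Gf (S.letter j l)).e1 :=
    hw.congr (Setoid.symm' _ hxy) (Setoid.refl' _ _)
  cases b <;> cases b' <;> first | exact absurd rfl hb | skip
  · exact Or.inr (key y x hy hw).symm
  · exact Or.inr (key x y hw hy)

theorem sepProp_glue : SepProp Gf (S.glue Gf p) := by
  intro a
  have reduce : ∀ (j : S.J) (l : Fin (S.len j)) (b : Bool) (x : (Gf (S.letter j l)).pt)
      (w : S.Point (S.kids Gf)), (∀ b' y, w ≠ .inner j l b' y) →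
      Witness Gf a (S.glue Gf p) (.inner j l b x) w ∨
        ∃ w', IsFrame w' ∧ (S.glue Gf p).rel a (.inner j l b x) w' := by
    intro j l b x w hw
    obtain ⟨F, hF, hs, ht, hjn, hot⟩ := Shape.exists_fold (Gf := Gf) (p := p) j l
    have hFw : F.map w = (Gf (S.letter j l)).e0 := by
      cases w with
      | start => exact hs
      | stop => exact ht
      | junc j' i => exact hjn j' i
      | inner j' i b' y =>
        refine hot j' i b' y ?_
        rintro ⟨rfl, hv⟩
        obtain rfl := Fin.ext hv
        exact hw b' y rfl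
    rcases hG.sep j l a x (Gf (S.letter j l)).e0 with hx | hwit
    · refine Or.inr ⟨if b then .junc j l.castSucc else .junc j l.succ, ?_, ?_⟩
      · cases b <;> exact trivial
      · refine Setoid.trans' _ ((Shape.embed (p := p) j l b).pres a _ _ hx) ?_
        cases b
        · exact Shape.link (.right j l)
        · exact Setoid.symm' _ (Shape.link (.left j l))
    · exact Or.inl (Witness.push F (by rw [hF, hFw]; exact hwit))
  have half : ∀ u w, IsFrame w →
      (S.glue Gf p).rel a u w ∨ Witness Gf a (S.glue Gf p) u w := by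
    intro u w hw
    cases u with
    | inner j l b x =>
      rcases reduce j l b x w (fun b' y e => by rw [e] at hw; exact hw) with h | ⟨w', hw', h⟩
      · exact Or.inr h
      · exact (hG.frame_case a hw' hw).imp (Setoid.trans' _ h)
          fun h' => h'.congr h (Setoid.refl' _ _)
    | start => exact hG.frame_case a trivial hw
    | stop => exact hG.frame_case a trivial hw
    | junc j i => exact hG.frame_case a trivial hw
  intro u v
  cases u with
  | inner j l b x =>
    by_cases hsame : ∃ b' y, v = .inner j l b' y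
    · obtain ⟨b', y, rfl⟩ := hsame
      exact hG.same_slot a j l b b' x y
    · push Not at hsame
      rcases reduce j l b x v hsame with h | ⟨w', hw', h⟩
      · exact Or.inr h
      · rcases half v w' hw' with h' | h'
        · exact Or.inl (Setoid.trans' _ h (Setoid.symm' _ h'))
        · exact Or.inr (h'.symm.congr h (Setoid.refl' _ _))
  | start => exact (half v .start trivial).imp (Setoid.symm' _) Witness.symm
  | stop => exact (half v .stop trivial).imp (Setoid.symm' _) Witness.symm
  | junc j i => exact (half v (.junc j i) trivial).imp (Setoid.symm' _) Witness.symm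

end Shape.Good

end Vale.Agent.P183
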