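import Vale.Agent.P183.Base
import Vale.Agent.P183.Separate

/-!
Maps between the gadgets, and their three basic properties.
-/

namespace Vale.Agent.P183.Base

variable {L : Type} [Lattice L] [OrderBot L] [Finite L] (B : Base L)

omit [Finite L] in
theorem meas_eq_zero {p : L} (h : ¬ B.Coll p) : B.meas p = 0 := by
  classical
  exact if_neg h

omit [Finite L] in
theorem meas_pos {p : L} (h : B.Coll p) : 0 < B.meas p := by
  classical
  simp [meas, if_pos h]

omit [Finite L] in
theorem desc_of_not_coll {p q : L} (hp : B.Coll p) (hq : SupIrred q) (hc : ¬ B.Coll q) :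
    B.Desc p q := ⟨hq, by rw [B.meas_eq_zero hc]; exact B.meas_pos hp⟩

omit [Finite L] in
theorem exists_descending {p : L} (hp : B.Coll p) {Q : Finset L} (hpQ : p ≤ Q.sup id)
    (hnot : ∀ q ∈ Q, ¬ p ≤ q) :
    ∃ R : Finset L, p ≤ R.sup id ∧ R.Nonempty ∧ (∀ r ∈ R, B.Desc p r) ∧
      ∀ r ∈ R, ∃ q ∈ Q, r ≤ q := by
  obtain ⟨R, h1, h2, h3⟩ := B.refine' p hp.1 hp.2 Q hpQ hnot
  refine ⟨R, h1, ?_, fun r hr => ?_, h3⟩
  · rw [Finset.nonempty_iff_ne_empty]
    rintro rfl
    exact hp.1.ne_bot (le_bot_iff.mp h1)
  · by_cases hc : B.Coll r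
    · refine ⟨(h2 r hr).1, ?_⟩
      classical
      have := (h2 r hr).2 hc.2
      simp only [meas, if_pos hc, if_pos hp]
      omega
    · exact B.desc_of_not_coll hp (h2 r hr).1 hc

/-- An equivalence on a copy of the algebra that receives all images of ends is large. -/
theorem le_of_hom_images (v : L) (R : Setoid B.A) (Q : Finset L)
    (hirr : ∀ q ∈ Q, SupIrred q)
    (hR : ∀ q ∈ Q, ∀ h : GHom (B.gad q) (B.blob v),
      R (h.map (B.gad q).e0) (h.map (B.gad q).e1))
    (hcoll : ∀ q ∈ Q, B.Coll q → ∀ x y : B.A, B.c q x y →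
      ∃ h : GHom (B.gad q) (B.blob v), h.map (B.gad q).e0 = x ∧ h.map (B.gad q).e1 = y) :
    B.c (Q.sup id) ≤ R := by
  let t : Setoid B.A :=
    { r := fun x y => ∀ g : GHom (B.blob v) (B.blob v), R (g.map x) (g.map y)
      iseqv := ⟨fun _ _ => R.refl' _, fun h g => R.symm' (h g),
        fun h h' g => R.trans' (h g) (h' g)⟩ }
  have ht : ∀ i x y, t x y → t (B.F i x) (B.F i y) :=
    fun i x y h g => h (g.comp (B.op v i))
  have hle : B.c (Q.sup id) ≤ t := by
    refine B.sup Q t ht fun q hq => ?_
    by_cases hc : B.Coll q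
    · intro x y hxy g
      obtain ⟨h, hx, hy⟩ := hcoll q hq hc x y hxy
      have := hR q hq (g.comp h)
      simp only [GHom.comp] at this
      rwa [hx, hy] at this
    · refine (B.principal_ends (hirr q hq) hc).2 t ht fun g => ?_
      have e := B.gad_blob hc
      have := hR q hq (g.comp ((B.transfer q v).comp (GHom.cast e)))
      simp only [GHom.comp, GHom.cast_e0, GHom.cast_e1] at this
      exact this
  exact fun x y h => hle h (GHom.id' _)

theorem sup_paths {p : L} (Q : B.Paths p) : p ≤ Q.1.sup id := Q.2.1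

/-- Walks give maps out of the gadget of a collapsed element. -/
theorem exists_hom_of_walks {q : L} (hq : B.Coll q) {T : Gad L} {u v : T.pt}
    (hedge : ∀ a, q ≤ a → T.rel a u v)
    (hwalk : ∀ Q : B.Paths q, WalkN B.gad T {r | r ∈ Q.1} (B.reps q) u v) :
    ∃ h : GHom (B.gad q) T, h.map (B.gad q).e0 = u ∧ h.map (B.gad q).e1 = v := by
  obtain ⟨h, h0, h1⟩ := Shape.exists_hom (S := B.shape q) (Gf := B.gad) hedge (fun Q => by
    obtain ⟨y, y0, y1, ym⟩ := WalkN.exists_path (Gf := B.gad) (c := Q.1.card)
      (word Q.1 Q.2.2.1) (word_add _ _) (fun r hr => exists_word _ _ hr) (hwalk Q)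
    exact ⟨y, y0, y1, fun i => ym i.1 i.2⟩)
  refine ⟨h.comp (GHom.cast (B.gad_coll hq)), ?_, ?_⟩
  · simp only [GHom.comp, GHom.cast_e0, h0]
  · simp only [GHom.comp, GHom.cast_e1, h1]

/-- A collapsed gadget maps onto every pair of its congruence in the algebra. -/
theorem exists_hom_blob (q : L) (hq : B.Coll q) (v : L) (x y : B.A) (hxy : B.c q x y) :
    ∃ h : GHom (B.gad q) (B.blob v), h.map (B.gad q).e0 = x ∧ h.map (B.gad q).e1 = y := by
  induction hn : B.meas q using Nat.strong_induction_on generalizing q x y with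
  | _ n ih =>
    refine B.exists_hom_of_walks hq (T := B.blob v) (fun a ha => B.mono ha hxy) fun Q => ?_
    refine WalkN.mono (B.card_le_reps q) (WalkN.of_eqvGen ?_)
    let R : Setoid B.A := Relation.EqvGen.setoid
      (fun a b => (B.blob v).rel ⊥ a b ∨ ∃ r ∈ {r | r ∈ Q.1}, Move B.gad (B.blob v) r a b)
    refine B.le_of_hom_images v R Q.1 (fun r hr => (Q.2.2.2 r hr).1) ?_ ?_
      (B.mono Q.2.1 hxy)
    · intro r hr h
      exact Relation.EqvGen.rel _ _ (Or.inr ⟨r, hr,
        Or.inr ⟨h, Or.inl ⟨Setoid.refl' _ _, Setoid.refl' _ _⟩⟩⟩)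
    · intro r hr hc a b hab
      exact ih _ (hn ▸ (Q.2.2.2 r hr).2) r hc a b hab rfl

/-- Walking through the gadget of a collapsed element along one path. -/
theorem walk_through {p : L} (Q' : (B.shape p).J) (S : Set L)
    (hS : ∀ i, ∃ r ∈ S, ∃ h : GHom (B.gad r) (B.gad ((B.shape p).letter Q' i)),
      h.map (B.gad r).e0 = (B.gad ((B.shape p).letter Q' i)).e0 ∧
        h.map (B.gad r).e1 = (B.gad ((B.shape p).letter Q' i)).e1) :
    WalkN B.gad ((B.shape p).glue B.gad p) S (2 * (B.shape p).len Q')
      ((B.shape p).glue B.gad p).e0 ((B.shape p).glue B.gad p).e1 := by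
  set T := (B.shape p).glue B.gad p
  have : ∀ k (hk : k < (B.shape p).len Q' + 1),
      WalkN B.gad T S (2 * k) (Shape.Point.start) (Shape.Point.junc Q' ⟨k, hk⟩) := by
    intro k
    induction k with
    | zero =>
      intro hk
      exact Shape.link (.first Q')
    | succ k ih =>
      intro hk
      have hk' : k < (B.shape p).len Q' := by omega
      let i : Fin ((B.shape p).len Q') := ⟨k, hk'⟩
      obtain ⟨r, hr, h, h0, h1⟩ := hS i
      have m1 : Move B.gad T r (Shape.Point.junc Q' i.castSucc)
          (Shape.Point.inner Q' i true (B.gad ((B.shape p).letter Q' i)).e1) := by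
        refine Or.inr ⟨(Shape.embed Q' i true).comp h, Or.inl ⟨?_, ?_⟩⟩
        · simp only [GHom.comp, h0]
          exact Shape.link (.left Q' i)
        · simp only [GHom.comp, h1]
          exact Setoid.refl' _ _
      have m2 : Move B.gad T r
          (Shape.Point.inner Q' i true (B.gad ((B.shape p).letter Q' i)).e1)
          (Shape.Point.junc Q' i.succ) := by
        refine Or.inr ⟨(Shape.embed Q' i false).comp h, Or.inr ⟨?_, ?_⟩⟩
        · simp only [GHom.comp, h1]
          exact Shape.link (.middle Q' i)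
        · simp only [GHom.comp, h0]
          exact Shape.link (.right Q' i)
      have h2 : WalkN B.gad T S (1 + 1) (Shape.Point.junc Q' i.castSucc)
          (Shape.Point.junc Q' i.succ) :=
        WalkN.trans 1 (WalkN.single hr m1) (WalkN.single hr m2)
      exact WalkN.trans 2 (ih (by omega)) h2
  have h1 := this ((B.shape p).len Q') (by omega)
  exact WalkN.trans 0 h1 (Shape.link (.last Q'))

/-- Larger collapsed gadgets map onto smaller ones, ends to ends. -/
theorem exists_hom_gad (q : L) (hq : B.Coll q) (p : L) (hp : SupIrred p) (hpq : p ≤ q) :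
    ∃ h : GHom (B.gad q) (B.gad p),
      h.map (B.gad q).e0 = (B.gad p).e0 ∧ h.map (B.gad q).e1 = (B.gad p).e1 := by
  classical
  induction hn : B.meas q using Nat.strong_induction_on generalizing q p with
  | _ n ih =>
    by_cases hpc : B.Coll p
    swap
    · rw [B.gad_blob hpc]
      exact B.exists_hom_blob q hq p _ _ (B.mono hpq (B.principal_ends hp hpc).1)
    rcases eq_or_lt_of_le hpq with rfl | hlt
    · exact ⟨GHom.id' _, rfl, rfl⟩
    rw [B.gad_coll hpc]
    refine B.exists_hom_of_walks hq (fun a ha => Shape.rel_ends (hpq.trans ha)) fun Q => ?_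
    have hgrow : ∀ R : B.Paths p, 2 * (B.shape p).len R ≤ B.reps q := fun R =>
      B.reps_growth hlt (by
        haveI := Fintype.ofFinite L
        rw [Nat.card_eq_fintype_card]
        exact Finset.card_le_univ _)
    by_cases hbig : ∃ r ∈ Q.1, p ≤ r
    · obtain ⟨r, hr, hpr⟩ := hbig
      by_cases hrc : B.Coll r
      · obtain ⟨h, h0, h1⟩ := ih _ (hn ▸ (Q.2.2.2 r hr).2) r hrc p hp hpr rfl
        refine WalkN.mono (le_trans (by norm_num) (B.three_le_reps q)) (WalkN.single hr ?_)
        refine Or.inr ⟨(GHom.cast (B.gad_coll hpc)).comp h, Or.inl ⟨?_, ?_⟩⟩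
        · simp only [GHom.comp, h0, GHom.cast_e0]; exact Setoid.refl' _ _
        · simp only [GHom.comp, h1, GHom.cast_e1]; exact Setoid.refl' _ _
      · let R : B.Paths p := ⟨{r}, by simpa using hpr, ⟨r, Finset.mem_singleton_self r⟩,
          fun x hx => by
            rw [Finset.mem_singleton] at hx
            exact hx ▸ B.desc_of_not_coll hpc (Q.2.2.2 r hr).1 hrc⟩
        refine WalkN.mono (hgrow R) (B.walk_through R _ fun i => ⟨r, hr, ?_⟩)
        have : (B.shape p).letter R i = r :=
          Finset.mem_singleton.mp (word_mem R.1 R.2.2.1 i.1)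
        exact ⟨GHom.cast (congrArg B.gad this.symm), GHom.cast_e0 _, GHom.cast_e1 _⟩
    push Not at hbig
    obtain ⟨R₀, h1, h2, h3, h4⟩ := B.exists_descending hpc (hpq.trans Q.2.1) hbig
    let f : L → L := fun v =>
      if h : ∃ r ∈ Q.1, ¬ B.Coll r ∧ v ≤ r then h.choose else v
    have hf : ∀ v, v ≤ f v := fun v => by
      simp only [f]
      split
      · rename_i h; exact h.choose_spec.2.2
      · exact le_rfl
    let R : B.Paths p := ⟨R₀.image f, h1.trans (Finset.sup_le fun v hv =>
        (hf v).trans (Finset.le_sup (f := id) (Finset.mem_image_of_mem f hv))),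
      h2.image f, fun w hw => by
        obtain ⟨v, hv, rfl⟩ := Finset.mem_image.mp hw
        simp only [f]
        split
        · rename_i h
          exact B.desc_of_not_coll hpc (Q.2.2.2 _ h.choose_spec.1).1 h.choose_spec.2.1
        · exact h3 v hv⟩
    refine WalkN.mono (hgrow R) (B.walk_through R _ fun i => ?_)
    obtain ⟨v, hv, hve⟩ := Finset.mem_image.mp (word_mem R.1 R.2.2.1 i.1)
    change f v = (B.shape p).letter R i at hve
    rw [← hve]
    by_cases hex : ∃ r ∈ Q.1, ¬ B.Coll r ∧ v ≤ r
    · have : f v = hex.choose := by simp only [f, dif_pos hex]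
      exact ⟨_, hex.choose_spec.1, GHom.cast (congrArg B.gad this.symm),
        GHom.cast_e0 _, GHom.cast_e1 _⟩
    · have : f v = v := by simp only [f, dif_neg hex]
      rw [this]
      obtain ⟨r, hr, hvr⟩ := h4 v hv
      have hrc : B.Coll r := by
        by_contra hrc
        exact hex ⟨r, hr, hrc, hvr⟩
      exact ⟨r, hr, ih _ (hn ▸ (Q.2.2.2 r hr).2) r hrc v (h3 v hv).1 hvr rfl⟩

theorem genProp_gad (p : L) (hp : SupIrred p) : GenProp B.gad (B.gad p) := by
  classical
  induction hn : B.meas p using Nat.strong_induction_on generalizing p with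
  | _ n ih =>
    by_cases hc : B.Coll p
    · rw [B.gad_coll hc]
      exact Shape.genProp_glue hp (B.gad_coll hc) fun Q i =>
        ih _ (hn ▸ (B.letter_desc Q i).2) _ (B.letter_desc Q i).1 rfl
    · rw [B.gad_blob hc]
      intro a s _ hends
      haveI := Fintype.ofFinite L
      let Q : Finset L := Finset.univ.filter fun q => SupIrred q ∧ q ≤ a
      have hle : a ≤ Q.sup id := by
        obtain ⟨d, hd, hirr⟩ := exists_supIrred_decomposition a
        rw [← hd]
        exact Finset.sup_mono fun x hx => Finset.mem_filter.mpr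
          ⟨Finset.mem_univ _, hirr hx, le_of_le_of_eq (Finset.le_sup (f := id) hx) hd⟩
      exact le_trans (B.mono hle) (B.le_of_hom_images p s Q
        (fun q hq => (Finset.mem_filter.mp hq).2.1)
        (fun q hq h => hends q (Finset.mem_filter.mp hq).2.1 (Finset.mem_filter.mp hq).2.2 h)
        (fun q _ hqc x y hxy => B.exists_hom_blob q hqc p x y hxy))

theorem cutProp_gad (p : L) (hp : SupIrred p) : CutProp (B.gad p) p := by
  induction hn : B.meas p using Nat.strong_induction_on generalizing p with
  | _ n ih =>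
    by_cases hc : B.Coll p
    · rw [B.gad_coll hc]
      refine Shape.cutProp_glue (fun Q a hle => ?_) fun Q i =>
        ih _ (hn ▸ (B.letter_desc Q i).2) _ (B.letter_desc Q i).1 rfl
      refine (B.sup_paths Q).trans (Finset.sup_le fun r hr => ?_)
      obtain ⟨t, ht, rfl⟩ := exists_word Q.1 Q.2.2.1 hr
      exact hle ⟨t, lt_of_lt_of_le ht
        (Nat.le_mul_of_pos_left _ (lt_of_lt_of_le (by norm_num) (B.three_le_reps p)))⟩
    · rw [B.gad_blob hc]
      intro a
      exact ⟨fun h => B.le_of_c_le hp hc ((B.principal_ends hp hc).2 _ (B.compat a) h),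
        fun h => B.mono h (B.principal_ends hp hc).1⟩

theorem sepProp_gad (p : L) (hp : SupIrred p) : SepProp B.gad (B.gad p) := by
  induction hn : B.meas p using Nat.strong_induction_on generalizing p with
  | _ n ih =>
    by_cases hc : B.Coll p
    · have e := B.gad_coll hc
      rw [e]
      refine Shape.Good.sepProp_glue ⟨hp, e, fun Q i => (B.letter_desc Q i).1,
        fun Q i => ih _ (hn ▸ (B.letter_desc Q i).2) _ (B.letter_desc Q i).1 rfl,
        fun Q i => B.cutProp_gad _ (B.letter_desc Q i).1, ?_, ?_⟩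
      · intro Q l
        have hcard := Q.2.2.1.card_pos
        have h3 := B.three_le_reps p
        have hlen : 3 * Q.1.card ≤ B.reps p * Q.1.card := Nat.mul_le_mul_right _ h3
        have hl : l.1 < B.reps p * Q.1.card := l.2
        by_cases hl' : l.1 < Q.1.card
        · refine ⟨⟨l.1 + Q.1.card, by show _ < B.reps p * Q.1.card; omega⟩,
            fun e => ?_, word_add Q.1 Q.2.2.1 l.1⟩
          have := congrArg Fin.val e
          simp only at this
          omega
        · refine ⟨⟨l.1 - Q.1.card, by show _ < B.reps p * Q.1.card; omega⟩, fun e => ?_, ?_⟩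
          · have := congrArg Fin.val e
            simp only at this
            omega
          · show word Q.1 Q.2.2.1 (l.1 - Q.1.card) = word Q.1 Q.2.2.1 l.1
            rw [← word_add Q.1 Q.2.2.1 (l.1 - Q.1.card),
              show l.1 - Q.1.card + Q.1.card = l.1 by omega]
      · intro Q i k hik hk l hl1 hl2 hall m
        have hcard := Q.2.2.1.card_pos
        have h3 := B.three_le_reps p
        have hperiod : ∀ n t, word Q.1 Q.2.2.1 (t + n * Q.1.card) = word Q.1 Q.2.2.1 t := by
          intro n t
          simp [word]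
        have hwmod : ∀ t, word Q.1 Q.2.2.1 (t % Q.1.card) = word Q.1 Q.2.2.1 t := by
          intro t
          simp [word]
        have hN : (B.reps p - 1) * Q.1.card + Q.1.card = B.reps p * Q.1.card := by
          rw [← Nat.succ_mul]
          congr 1
          omega
        have h2N : 2 * Q.1.card ≤ (B.reps p - 1) * Q.1.card :=
          Nat.mul_le_mul_right _ (by omega)
        have hlm := Nat.mod_lt l.1 hcard
        have hmm := Nat.mod_lt m.1 hcard
        have hfirst := hall ⟨l.1 % Q.1.card, by show _ < B.reps p * Q.1.card; omega⟩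
          (hwmod l.1)
        have hlast := hall ⟨l.1 % Q.1.card + (B.reps p - 1) * Q.1.card,
          by show _ < B.reps p * Q.1.card; omega⟩ ((hperiod _ _).trans (hwmod l.1))
        simp only at hfirst hlast
        refine ⟨⟨m.1 % Q.1.card + 1 * Q.1.card, by show _ < B.reps p * Q.1.card; omega⟩,
          (hperiod 1 _).trans (hwmod m.1), ?_, ?_⟩
        · show i ≤ m.1 % Q.1.card + 1 * Q.1.card
          omega
        · show m.1 % Q.1.card + 1 * Q.1.card < k
          omega
    · rw [B.gad_blob hc]
      intro a x y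
      by_cases hxy : (B.blob p).rel a x y
      · exact Or.inl hxy
      right
      let t₀ : Setoid B.A :=
        { r := fun u v => ∀ s : Setoid B.A, (∀ i x y, s x y → s (B.F i x) (B.F i y)) →
            s x y → s u v
          iseqv := ⟨fun _ s _ _ => s.refl' _, fun h s hs h' => s.symm' (h s hs h'),
            fun h h₂ s hs h' => s.trans' (h s hs h') (h₂ s hs h')⟩ }
      have ht₀ : ∀ i u v, t₀ u v → t₀ (B.F i u) (B.F i v) :=
        fun i u v h s hs h' => hs i u v (h s hs h')
      obtain ⟨b, hb⟩ := B.surj t₀ ht₀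
      have hbxy : B.c b x y := by
        rw [← hb]; exact fun s _ h => h
      obtain ⟨r, hr, hrb, hrc, hra⟩ := B.exists_irred_below (x := b) a (fun h => hxy (h hbxy))
      refine ⟨r, hr, fun h => hra (B.mono h), fun t _ hh => ?_⟩
      have e := B.gad_blob hrc
      let t' : Setoid B.A :=
        { r := fun u w => ∀ g : GHom (B.blob p) (B.gad r), t (g.map u) (g.map w)
          iseqv := ⟨fun _ _ => t.refl' _, fun h g => t.symm' (h g),
            fun h h' g => t.trans' (h g) (h' g)⟩ }
      have ht' : ∀ i u v, t' u v → t' (B.F i u) (B.F i v) :=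
        fun i u v h g => h (g.comp (B.op p i))
      have h1 : B.c b ≤ t' := by
        rw [← hb]; exact fun u v h => h t' ht' hh
      have h2 : t' (B.ends r).1 (B.ends r).2 :=
        h1 (B.mono hrb (B.principal_ends hr hrc).1)
      have := h2 ((GHom.cast e.symm).comp (B.transfer p r))
      simp only [GHom.comp] at this
      have e0 : (GHom.cast e.symm).map ((B.transfer p r).map (B.ends r).1) = (B.gad r).e0 :=
        GHom.cast_e0 e.symm
      have e1 : (GHom.cast e.symm).map ((B.transfer p r).map (B.ends r).2) = (B.gad r).e1 :=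
        GHom.cast_e1 e.symm
      rwa [e0, e1] at this

end Vale.Agent.P183.Base
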