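import Vale.Agent.P183.Unary

/-!
The dual of the congruence lattice of a finite algebra is again one (Kurzweil's construction):
the algebra lives on the cosets of the constants in `A → T` for a simple nonabelian group `T`.
-/

namespace Vale.Agent.P183

section Subgroups

variable {A T : Type} [Group T]

/-- Functions constant on the classes of `θ`. -/
def classFun (θ : Setoid A) : Subgroup (A → T) where
  carrier := {φ | ∀ a b, θ a b → φ a = φ b}
  one_mem' := fun _ _ _ => rfl
  mul_mem' := fun {f g} hf hg a b hab => by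
    simp only [Pi.mul_apply]; rw [hf a b hab, hg a b hab]
  inv_mem' := fun {f} hf a b hab => by
    simp only [Pi.inv_apply]; rw [hf a b hab]

theorem mem_classFun {θ : Setoid A} {φ : A → T} :
    φ ∈ classFun θ ↔ ∀ a b, θ a b → φ a = φ b := Iff.rfl

/-- The kernel of all members of a subgroup of functions. -/
def commonKer (H : Subgroup (A → T)) : Setoid A where
  r a b := ∀ h ∈ H, h a = h b
  iseqv := ⟨fun _ _ _ => rfl, fun h g hg => (h g hg).symm,
    fun h h' g hg => (h g hg).trans (h' g hg)⟩

/-- Values at `b` of members of `H` that are trivial on `S`. -/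
def valuesAt (H : Subgroup (A → T)) (b : A) (S : Finset A) : Subgroup T where
  carrier := {u | ∃ h ∈ H, h b = u ∧ ∀ c ∈ S, h c = 1}
  one_mem' := ⟨1, H.one_mem, rfl, fun _ _ => rfl⟩
  mul_mem' := by
    rintro u v ⟨f, hf, fb, fS⟩ ⟨g, hg, gb, gS⟩
    exact ⟨f * g, H.mul_mem hf hg, by simp [fb, gb],
      fun c hc => by simp [fS c hc, gS c hc]⟩
  inv_mem' := by
    rintro u ⟨f, hf, fb, fS⟩
    exact ⟨f⁻¹, H.inv_mem hf, by simp [fb], fun c hc => by simp [fS c hc]⟩

theorem valuesAt_normal (H : Subgroup (A → T)) (hD : ∀ t : T, (fun _ => t) ∈ H)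
    (b : A) (S : Finset A) : (valuesAt H b S).Normal := by
  constructor
  rintro u ⟨f, hf, fb, fS⟩ t
  exact ⟨(fun _ => t) * f * (fun _ => t)⁻¹, H.mul_mem (H.mul_mem (hD t) hf) (H.inv_mem (hD t)),
    by simp [fb], fun c hc => by simp [fS c hc]⟩

theorem valuesAt_eq_top [IsSimpleGroup T] (hT : ∃ u v : T, u * v ≠ v * u)
    (H : Subgroup (A → T)) (hD : ∀ t : T, (fun _ => t) ∈ H) (b : A) :
    ∀ S : Finset A, (∀ c ∈ S, ¬ commonKer H b c) → valuesAt H b S = ⊤ := by
  classical
  have top : ∀ S, (∃ u ∈ valuesAt H b S, u ≠ (1 : T)) → valuesAt H b S = ⊤ := by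
    intro S hS
    rcases (valuesAt_normal H hD b S).eq_bot_or_eq_top with h | h
    · obtain ⟨u, hu, hu1⟩ := hS
      rw [h, Subgroup.mem_bot] at hu
      exact absurd hu hu1
    · exact h
  intro S
  induction S using Finset.induction_on with
  | empty =>
    intro _
    rw [eq_top_iff]
    intro u _
    exact ⟨fun _ => u, hD u, rfl, by simp⟩
  | insert c S hcS ih =>
    intro hS
    have hc : valuesAt H b {c} = ⊤ := by
      apply top
      have hn : ¬ ∀ h ∈ H, h b = h c := hS c (Finset.mem_insert_self c S)
      simp only [not_forall] at hn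
      obtain ⟨h, hh, hne⟩ := hn
      refine ⟨h b * (h c)⁻¹, ⟨h * (fun _ => (h c)⁻¹), H.mul_mem hh (hD _), rfl, ?_⟩, ?_⟩
      · intro d hd
        rw [Finset.mem_singleton] at hd
        simp [hd]
      · intro he
        exact hne (mul_inv_eq_one.mp he)
    have hS' : valuesAt H b S = ⊤ := ih (fun d hd => hS d (Finset.mem_insert_of_mem hd))
    apply top
    obtain ⟨u, v, huv⟩ := hT
    have hu : u ∈ valuesAt H b {c} := by rw [hc]; trivial
    have hv : v ∈ valuesAt H b S := by rw [hS']; trivial
    obtain ⟨f, hf, fb, fc⟩ := hu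
    obtain ⟨g, hg, gb, gS⟩ := hv
    refine ⟨u * v * u⁻¹ * v⁻¹, ⟨f * g * f⁻¹ * g⁻¹,
      H.mul_mem (H.mul_mem (H.mul_mem hf hg) (H.inv_mem hf)) (H.inv_mem hg),
      by simp [fb, gb], ?_⟩, ?_⟩
    · intro d hd
      rcases Finset.mem_insert.mp hd with hd | hd
      · subst hd
        simp [fc d (Finset.mem_singleton_self d)]
      · simp [gS d hd]
    · intro he
      apply huv
      calc u * v = u * v * u⁻¹ * v⁻¹ * (v * u) := by group
        _ = v * u := by rw [he, one_mul]

theorem classFun_commonKer [IsSimpleGroup T] [Finite A] (hT : ∃ u v : T, u * v ≠ v * u)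
    (H : Subgroup (A → T)) (hD : ∀ t : T, (fun _ => t) ∈ H) :
    classFun (commonKer H) = H := by
  classical
  haveI := Fintype.ofFinite A
  apply le_antisymm
  · suffices ∀ n, ∀ φ ∈ classFun (T := T) (commonKer H),
        (Finset.univ.filter fun a => φ a ≠ 1).card = n → φ ∈ H by
      intro φ hφ; exact this _ φ hφ rfl
    intro n
    induction n using Nat.strong_induction_on with
    | _ n ih =>
      intro φ hφ hn
      by_cases h1 : φ = 1
      · subst h1; exact H.one_mem
      obtain ⟨b, hb⟩ := Function.ne_iff.mp h1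
      have hv : φ b ∈ valuesAt H b (Finset.univ.filter fun c => ¬ commonKer H b c) := by
        rw [valuesAt_eq_top hT H hD b _ (fun c hc => (Finset.mem_filter.mp hc).2)]
        trivial
      obtain ⟨ψ, hψ, ψb, ψ1⟩ := hv
      have hψc : ψ ∈ classFun (commonKer H) := fun a a' h => h ψ hψ
      have hlt : (Finset.univ.filter fun a => (φ * ψ⁻¹) a ≠ 1).card < n := by
        rw [← hn]
        apply Finset.card_lt_card
        refine ⟨?_, ?_⟩
        · intro a ha
          simp only [Finset.mem_filter, Finset.mem_univ, true_and] at ha ⊢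
          intro hφa
          apply ha
          by_cases hab : commonKer H b a
          · exact absurd ((hφ b a hab).trans hφa) hb
          · simp [hφa, ψ1 a (by simp [hab])]
        · intro hsub
          have := hsub (show b ∈ Finset.univ.filter (fun a => φ a ≠ 1) by
            simpa using hb)
          simp [ψb] at this
      have := H.mul_mem (ih _ hlt (φ * ψ⁻¹)
        ((classFun _).mul_mem hφ ((classFun _).inv_mem hψc)) rfl) hψ
      simpa using this
  · exact fun h hh a b hab => hab h hh

end Subgroups

theorem exists_simple_nonabelian :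
    IsSimpleGroup (alternatingGroup (Fin 5)) ∧
      ∃ u v : alternatingGroup (Fin 5), u * v ≠ v * u := by
  refine ⟨alternatingGroup.isSimpleGroup (by simp),
    ⟨Equiv.swap 0 1 * Equiv.swap 1 2, Equiv.Perm.mem_alternatingGroup.mpr (by decide)⟩,
    ⟨Equiv.swap 1 2 * Equiv.swap 2 3, Equiv.Perm.mem_alternatingGroup.mpr (by decide)⟩,
    fun h => absurd (congrArg (fun p : alternatingGroup (Fin 5) =>
      (p : Equiv.Perm (Fin 5)) 1) h) (by decide)⟩

section Dual

variable {A T : Type} [Group T]

/-- The constant functions. -/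
def constants (A T : Type) [Group T] : Subgroup (A → T) :=
  MonoidHom.range (Pi.constMonoidHom A T)

theorem constants_le_classFun (θ : Setoid A) : constants A T ≤ classFun θ := by
  rintro φ ⟨t, rfl⟩ a b _
  rfl

theorem const_mem_constants (t : T) : (fun _ => t) ∈ constants A T := ⟨t, rfl⟩

/-- The congruence of `A → T` modulo constants attached to `θ`. -/
def dualSetoid (θ : Setoid A) : Setoid ((A → T) ⧸ constants A T) :=
  Setoid.ker (Subgroup.quotientMapOfLE (constants_le_classFun (T := T) θ))

theorem dualSetoid_mk (θ : Setoid A) (g h : A → T) :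
    dualSetoid θ (QuotientGroup.mk g) (QuotientGroup.mk h) ↔ g⁻¹ * h ∈ classFun θ := by
  show Subgroup.quotientMapOfLE _ _ = Subgroup.quotientMapOfLE _ _ ↔ _
  rw [Subgroup.quotientMapOfLE_apply_mk, Subgroup.quotientMapOfLE_apply_mk]
  exact QuotientGroup.eq

/-- Precomposition on cosets of constants. -/
def pullBack (f : A → A) : (A → T) ⧸ constants A T → (A → T) ⧸ constants A T :=
  Quotient.map' (fun φ => φ ∘ f) (by
    intro g h hgh
    rw [QuotientGroup.leftRel_apply] at hgh ⊢
    obtain ⟨t, ht⟩ := hgh
    refine ⟨t, ?_⟩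
    funext a
    exact congrFun ht (f a))

theorem pullBack_mk (f : A → A) (g : A → T) :
    pullBack f (QuotientGroup.mk g) = QuotientGroup.mk (g ∘ f) := rfl

variable {ι : Type} (F : ι → A → A)

/-- Operations of the dual algebra: precompositions and translations. -/
def dualOps : ι ⊕ (A → T) → (A → T) ⧸ constants A T → (A → T) ⧸ constants A T
  | .inl i => pullBack (F i)
  | .inr g => fun x => g • x

theorem dualSetoid_compat {θ : Setoid A} (hθ : ∀ i, Compat (F i) θ) (i : ι ⊕ (A → T)) :
    Compat (dualOps F i) (dualSetoid θ) := by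
  intro x y
  induction x using QuotientGroup.induction_on with | _ g => ?_
  induction y using QuotientGroup.induction_on with | _ h => ?_
  intro hgh
  rw [dualSetoid_mk] at hgh
  rcases i with i | k
  · simp only [dualOps, pullBack_mk, dualSetoid_mk]
    intro a b hab
    exact hgh _ _ (hθ i a b hab)
  · simp only [dualOps, MulAction.Quotient.smul_mk, dualSetoid_mk, smul_eq_mul]
    have : (k * g)⁻¹ * (k * h) = g⁻¹ * h := by group
    rw [this]
    exact hgh

theorem dualSetoid_le_iff [Nontrivial T] {θ θ' : Setoid A} :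
    dualSetoid (T := T) θ' ≤ dualSetoid θ ↔ θ ≤ θ' := by
  classical
  constructor
  · intro h a b hab
    by_contra hn
    obtain ⟨u, hu⟩ := exists_ne (1 : T)
    let φ : A → T := fun c => if θ' a c then u else 1
    have hφ : φ ∈ classFun θ' := by
      intro c d hcd
      have : θ' a c ↔ θ' a d :=
        ⟨fun h => θ'.trans' h hcd, fun h => θ'.trans' h (θ'.symm' hcd)⟩
      simp only [φ, this]
    have h1 : dualSetoid θ' (QuotientGroup.mk (1 : A → T)) (QuotientGroup.mk φ) := by
      rw [dualSetoid_mk]; simpa using hφ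
    have h2 := h h1
    rw [dualSetoid_mk] at h2
    have h3 : φ a = φ b := by simpa using h2 a b hab
    simp only [φ, θ'.refl' a, if_true, hn, if_false] at h3
    exact hu h3
  · intro h x y
    induction x using QuotientGroup.induction_on with | _ g => ?_
    induction y using QuotientGroup.induction_on with | _ k => ?_
    intro hgk
    rw [dualSetoid_mk] at hgk ⊢
    exact fun a b hab => hgk a b (h hab)

theorem exists_dualSetoid_eq [IsSimpleGroup T] [Finite A] (hT : ∃ u v : T, u * v ≠ v * u)
    (s : Setoid ((A → T) ⧸ constants A T)) (hs : ∀ i, Compat (dualOps F i) s) :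
    ∃ θ : Setoid A, (∀ i, Compat (F i) θ) ∧ dualSetoid θ = s := by
  have hsm : ∀ (g : A → T) (x y : A → T), s (QuotientGroup.mk x) (QuotientGroup.mk y) →
      s (QuotientGroup.mk (g * x)) (QuotientGroup.mk (g * y)) :=
    fun g x y h => hs (.inr g) _ _ h
  let H : Subgroup (A → T) :=
    { carrier := {g | s (QuotientGroup.mk 1) (QuotientGroup.mk g)}
      one_mem' := s.refl' _
      mul_mem' := fun {f g} hf hg => s.trans' hf (by
        have := hsm f 1 g hg
        simpa using this)
      inv_mem' := fun {f} hf => by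
        have := hsm f⁻¹ 1 f hf
        simp only [mul_one, inv_mul_cancel] at this
        exact s.symm' this }
  have hD : ∀ t : T, (fun _ => t) ∈ H := by
    intro t
    show s (QuotientGroup.mk (1 : A → T)) (QuotientGroup.mk (fun _ => t))
    have : (QuotientGroup.mk (1 : A → T) : (A → T) ⧸ constants A T) =
        QuotientGroup.mk (fun _ => t) := by
      rw [QuotientGroup.eq]
      simpa using const_mem_constants (A := A) t
    rw [this]
  have hH := classFun_commonKer hT H hD
  refine ⟨commonKer H, ?_, ?_⟩
  · intro i a b hab h hh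
    have h' : h ∘ F i ∈ H := hs (.inl i) _ _ hh
    exact hab _ h'
  · ext x y
    induction x using QuotientGroup.induction_on with | _ g => ?_
    induction y using QuotientGroup.induction_on with | _ h => ?_
    rw [dualSetoid_mk, hH]
    constructor
    · intro hm
      have := hsm g 1 (g⁻¹ * h) hm
      simpa using this
    · intro hm
      have := hsm g⁻¹ g h hm
      show s (QuotientGroup.mk (1 : A → T)) (QuotientGroup.mk (g⁻¹ * h))
      simpa using this

end Dual

theorem UnaryRep.dual {L : Type} [Preorder L] (h : UnaryRep L) : UnaryRep Lᵒᵈ := by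
  obtain ⟨A, hA, hne, ι, hι, F, ⟨e⟩⟩ := h
  obtain ⟨hS, hT⟩ := exists_simple_nonabelian
  haveI := hS
  haveI : Nontrivial (alternatingGroup (Fin 5)) := inferInstance
  let f : ({r : Setoid A // ∀ i, Compat (F i) r})ᵒᵈ →
      {s : Setoid ((A → alternatingGroup (Fin 5)) ⧸ constants A (alternatingGroup (Fin 5))) //
        ∀ i, Compat (dualOps F i) s} :=
    fun θ => ⟨dualSetoid (OrderDual.ofDual θ).1, dualSetoid_compat F (OrderDual.ofDual θ).2⟩
  have hf : ∀ a b, f a ≤ f b ↔ a ≤ b := fun a b => dualSetoid_le_iff
  have hs : Function.Surjective f := by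
    intro s
    obtain ⟨θ, hθ, he⟩ := exists_dualSetoid_eq F hT s.1 s.2
    exact ⟨OrderDual.toDual ⟨θ, hθ⟩, Subtype.ext he⟩
  haveI : Finite A := hA
  haveI : Finite ι := hι
  refine ⟨_, inferInstance, inferInstance, ι ⊕ (A → alternatingGroup (Fin 5)), inferInstance,
    dualOps F, ⟨e.dual.trans (RelIso.ofSurjective (OrderEmbedding.ofMapLEIff f hf) hs)⟩⟩

end Vale.Agent.P183
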