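import Vale.Agent.P183.Algebra
import Vale.Agent.P183.Covers
import Vale.Agent.P183.Kurzweil

/-!
A lattice over a representable lattice, with acyclic collapsed part, is representable.
-/

namespace Vale.Agent.P183

theorem IsRepresentable.unaryRep {L : Type} [Preorder L] (h : IsRepresentable L) :
    UnaryRep L := by
  classical
  obtain ⟨A, hA, hne, k, ar, op, ⟨e⟩⟩ := h
  haveI := hA
  let ι := Σ i : Fin k, Fin (ar i) × (Fin (ar i) → A)
  let F : ι → A → A := fun z a => op z.1 (Function.update z.2.2 z.2.1 a)
  have key : ∀ r : Setoid A,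
      (∀ i (x y : Fin (ar i) → A), (∀ j, r (x j) (y j)) → r (op i x) (op i y)) ↔
        ∀ z, Compat (F z) r := by
    intro r
    constructor
    · intro hr z a b hab
      refine hr z.1 _ _ fun j => ?_
      by_cases hj : j = z.2.1
      · subst hj; simpa using hab
      · simp only [Function.update_of_ne hj]
        exact r.refl' _
    · intro hr i x y hxy
      suffices ∀ s : Finset (Fin (ar i)), r (op i x) (op i (fun j => if j ∈ s then y j else x j))
        by simpa using this Finset.univ
      intro s
      induction s using Finset.induction_on with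
      | empty => simp only [Finset.notMem_empty, if_false]; exact r.refl' _
      | insert j s hj ih =>
        have h1 := hr ⟨i, j, fun l => if l ∈ s then y l else x l⟩ (x j) (y j) (hxy j)
        simp only [F] at h1
        have e1 : Function.update (fun l => if l ∈ s then y l else x l) j (x j) =
            fun l => if l ∈ s then y l else x l := by
          funext l
          by_cases hl : l = j
          · subst hl; simp [hj]
          · simp [hl]
        have e2 : Function.update (fun l => if l ∈ s then y l else x l) j (y j) =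
            fun l => if l ∈ insert j s then y l else x l := by
          funext l
          by_cases hl : l = j
          · subst hl; simp
          · simp [hl]
        rw [e1, e2] at h1
        exact r.trans' ih h1
  exact ⟨A, hA, hne, ι, inferInstance, F, ⟨e.trans
    { toEquiv := Equiv.subtypeEquivRight key
      map_rel_iff' := by intro a b; exact Iff.rfl }⟩⟩

/-- The data over a surjection onto a representable lattice. -/
noncomputable def baseOfHom {L L₀ A ι : Type} [Lattice L] [OrderBot L] [Finite L] [Lattice L₀]
    [Finite A] [Nonempty A] (F : ι → A → A)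
    (e : L₀ ≃o {r : Setoid A // ∀ i, Compat (F i) r}) (f : LatticeHom L L₀)
    (hf : Function.Surjective f) (hcyc : NoCollapsedCycle f) : Base L where
  A := A
  finA := inferInstance
  neA := inferInstance
  ι := ι
  F := F
  c a := (e (f a)).1
  compat a i := (e (f a)).2 i
  mono _ _ hab := e.monotone (OrderHomClass.mono f hab)
  inf a b x y ha hb := by
    let t : {r : Setoid A // ∀ i, Compat (F i) r} := ⟨(e (f a)).1 ⊓ (e (f b)).1,
      fun i u v huv => ⟨(e (f a)).2 i u v huv.1, (e (f b)).2 i u v huv.2⟩⟩
    have h1 : e.symm t ≤ f a := by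
      rw [e.symm_apply_le]
      exact fun u v h => h.1
    have h2 : e.symm t ≤ f b := by
      rw [e.symm_apply_le]
      exact fun u v h => h.2
    have h3 : e.symm t ≤ f (a ⊓ b) := by rw [map_inf]; exact le_inf h1 h2
    rw [e.symm_apply_le] at h3
    exact h3 ⟨ha, hb⟩
  sup Q t ht hQ := by
    classical
    let t' : {r : Setoid A // ∀ i, Compat (F i) r} := ⟨t, ht⟩
    show e (f (Q.sup id)) ≤ t'
    rw [← e.le_symm_apply]
    induction Q using Finset.induction_on with
    | empty =>
      obtain ⟨z, hz⟩ := hf (e.symm t')
      rw [Finset.sup_empty, ← hz]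
      exact OrderHomClass.mono f (OrderBot.bot_le z)
    | insert q Q _ ih =>
      rw [Finset.sup_insert, map_sup]
      refine sup_le ?_ (ih fun x hx => hQ x (Finset.mem_insert_of_mem hx))
      rw [e.le_symm_apply]
      exact hQ q (Finset.mem_insert_self q Q)
  surj t ht := by
    obtain ⟨b, hb⟩ := hf (e.symm ⟨t, ht⟩)
    exact ⟨b, by rw [hb, e.apply_symm_apply]⟩
  rk p := {q : L | Relation.TransGen
    (fun x y => DRel x y ∧ Collapsed f x ∧ Collapsed f y) p q}.ncard
  refine' p hp hpc A' hA hnot := by
    have hcoll : ∀ q, SupIrred q → (∃ x, x < q ∧ (e (f x)).1 = (e (f q)).1) → Collapsed f q :=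
      fun q hq ⟨x, hx, he⟩ => ⟨hq, x, hx, e.injective (Subtype.ext he)⟩
    obtain ⟨Q, hQ, hirr, hAQ⟩ := exists_minCover_refining p A' hA hnot
    refine ⟨Q, hQ.1, fun q hq => ⟨hirr q hq, fun hqc => ?_⟩, hAQ⟩
    have hpq : DRel p q ∧ Collapsed f p ∧ Collapsed f q :=
      ⟨⟨hp, hirr q hq, Q, hQ, hq⟩, hcoll p hp hpc, hcoll q (hirr q hq) hqc⟩
    apply Set.ncard_lt_ncard ?_ (Set.toFinite _)
    refine ⟨fun r hr => Relation.TransGen.head hpq hr, fun hsub => hcyc q (hsub ?_)⟩
    exact Relation.TransGen.single hpq

theorem unaryRep_of_hom {L L₀ : Type} [Lattice L] [OrderBot L] [Finite L] [Lattice L₀]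
    (f : LatticeHom L L₀) (hf : Function.Surjective f) (h₀ : UnaryRep L₀)
    (hcyc : NoCollapsedCycle f) : UnaryRep L := by
  obtain ⟨A, hA, hne, ι, -, F, ⟨e⟩⟩ := h₀
  haveI := hA
  haveI := hne
  exact (baseOfHom F e f hf hcyc).unaryRep

theorem isRepresentable_of_hom {L L₀ : Type} [Lattice L] [BoundedOrder L] [Finite L] [Lattice L₀]
    (f : LatticeHom L L₀) (hf : Function.Surjective f) (h₀ : IsRepresentable L₀)
    (hcyc : NoCollapsedCycle f ∨ NoCollapsedCycle (LatticeHom.dual f)) : IsRepresentable L := by
  rcases hcyc with h | h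
  · exact (unaryRep_of_hom f hf h₀.unaryRep h).isRepresentable
  · have h1 : UnaryRep Lᵒᵈ := unaryRep_of_hom (LatticeHom.dual f) hf h₀.unaryRep.dual h
    exact (h1.dual.congr (OrderIso.dualDual L).symm).isRepresentable

end Vale.Agent.P183
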