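import Vale.Agent.P183.Compose

/-!
Walks in a target gadget and the maps of composite gadgets along periodic words.
-/

namespace Vale.Agent.P183

variable {L : Type} [Lattice L] [OrderBot L] {Gf : L → Gad L}

theorem Move.congr {T : Gad L} {r : L} {x x' z z' : T.pt} (hx : T.rel ⊥ x' x)
    (h : Move Gf T r x z) (hz : T.rel ⊥ z z') : Move Gf T r x' z' := by
  rcases h with h | ⟨f, h | h⟩
  · exact Or.inl (Setoid.trans' _ hx (Setoid.trans' _ h hz))
  · exact Or.inr ⟨f, Or.inl ⟨Setoid.trans' _ hx h.1, Setoid.trans' _ h.2 hz⟩⟩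
  · exact Or.inr ⟨f, Or.inr ⟨Setoid.trans' _ hx h.1, Setoid.trans' _ h.2 hz⟩⟩

theorem Move.symm {T : Gad L} {r : L} {x z : T.pt} (h : Move Gf T r x z) :
    Move Gf T r z x := by
  rcases h with h | ⟨f, h | h⟩
  · exact Or.inl (Setoid.symm' _ h)
  · exact Or.inr ⟨f, Or.inr ⟨Setoid.symm' _ h.2, Setoid.symm' _ h.1⟩⟩
  · exact Or.inr ⟨f, Or.inl ⟨Setoid.symm' _ h.2, Setoid.symm' _ h.1⟩⟩

/-- A walk with at most `n` moves along letters from `Q`. -/
def WalkN (Gf : L → Gad L) (T : Gad L) (Q : Set L) : ℕ → T.pt → T.pt → Prop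
  | 0, u, v => T.rel ⊥ u v
  | n + 1, u, v => T.rel ⊥ u v ∨ ∃ w, (∃ r ∈ Q, Move Gf T r u w) ∧ WalkN Gf T Q n w v

namespace WalkN

variable {T : Gad L} {Q : Set L}

theorem refl' : ∀ (n : ℕ) {u v : T.pt}, T.rel ⊥ u v → WalkN Gf T Q n u v
  | 0, _, _, h => h
  | _ + 1, _, _, h => Or.inl h

theorem congr_left : ∀ {n : ℕ} {u u' v : T.pt}, T.rel ⊥ u' u → WalkN Gf T Q n u v →
    WalkN Gf T Q n u' v
  | 0, _, _, _, h, h' => Setoid.trans' _ h h'
  | _ + 1, _, _, _, h, Or.inl h' => Or.inl (Setoid.trans' _ h h')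
  | _ + 1, _, _, _, h, Or.inr ⟨w, ⟨r, hr, hm⟩, hw⟩ =>
    Or.inr ⟨w, ⟨r, hr, hm.congr h (Setoid.refl' _ _)⟩, hw⟩

theorem mono : ∀ {n m : ℕ}, n ≤ m → ∀ {u v : T.pt}, WalkN Gf T Q n u v → WalkN Gf T Q m u v
  | 0, m, _, _, _, h => refl' m h
  | n + 1, 0, hnm, _, _, _ => absurd hnm (by omega)
  | _ + 1, _ + 1, _, _, _, Or.inl h => Or.inl h
  | _ + 1, _ + 1, hnm, _, _, Or.inr ⟨w, hr, hw⟩ =>
    Or.inr ⟨w, hr, mono (Nat.le_of_succ_le_succ hnm) hw⟩

theorem single {r : L} (hr : r ∈ Q) {u v : T.pt} (h : Move Gf T r u v) :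
    WalkN Gf T Q 1 u v :=
  Or.inr ⟨v, ⟨r, hr, h⟩, Setoid.refl' _ _⟩

theorem trans : ∀ {n : ℕ} (m : ℕ) {u v w : T.pt}, WalkN Gf T Q n u v → WalkN Gf T Q m v w →
    WalkN Gf T Q (n + m) u w
  | 0, m, _, _, _, h, h' => by rw [Nat.zero_add]; exact congr_left h h'
  | n + 1, m, _, _, _, Or.inl h, h' => mono (by omega) (congr_left h h')
  | n + 1, m, _, _, _, Or.inr ⟨x, hx, hxv⟩, h' => by
    rw [show n + 1 + m = (n + m) + 1 by omega]
    exact Or.inr ⟨x, hx, trans m hxv h'⟩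

theorem of_eqvGen {u v : T.pt}
    (h : Relation.EqvGen (fun x z => T.rel ⊥ x z ∨ ∃ r ∈ Q, Move Gf T r x z) u v) :
    WalkN Gf T Q (Nat.card T.pt) u v := by
  classical
  haveI := T.finite_pt
  haveI := Fintype.ofFinite T.pt
  let G : SimpleGraph T.pt :=
    SimpleGraph.fromRel fun x z => T.rel ⊥ x z ∨ ∃ r ∈ Q, Move Gf T r x z
  have hreach : G.Reachable u v := by
    induction h with
    | rel x z hxz =>
      by_cases e : x = z
      · subst e; exact SimpleGraph.Reachable.refl _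
      · exact SimpleGraph.Adj.reachable ⟨e, Or.inl hxz⟩
    | refl x => exact SimpleGraph.Reachable.refl _
    | symm x z _ ih => exact ih.symm
    | trans x z w _ _ ih ih' => exact ih.trans ih'
  have hwalk : ∀ {x z : T.pt} (w : G.Walk x z), WalkN Gf T Q w.length x z := by
    intro x z w
    induction w with
    | nil => exact refl' _ (Setoid.refl' _ _)
    | cons hadj w ih =>
      obtain ⟨-, (h | ⟨r, hr, hm⟩) | (h | ⟨r, hr, hm⟩)⟩ := hadj
      · exact mono (Nat.le_succ _) (congr_left h ih)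
      · exact Or.inr ⟨_, ⟨r, hr, hm⟩, ih⟩
      · exact mono (Nat.le_succ _) (congr_left (Setoid.symm' _ h) ih)
      · exact Or.inr ⟨_, ⟨r, hr, hm.symm⟩, ih⟩
  obtain ⟨w⟩ := hreach
  refine mono ?_ (hwalk w.toPath.1)
  rw [Nat.card_eq_fintype_card]
  exact le_of_lt (SimpleGraph.Walk.IsPath.length_lt w.toPath.2)

/-- A walk becomes a parametrised path along a periodic word. -/
theorem exists_path {c : ℕ} (lt : ℕ → L) (hper : ∀ i, lt (i + c) = lt i)
    (hlt : ∀ r ∈ Q, ∃ t < c, lt t = r) :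
    ∀ {n : ℕ} {u v : T.pt}, WalkN Gf T Q n u v → ∃ y : ℕ → T.pt,
      T.rel ⊥ u (y 0) ∧ T.rel ⊥ (y (n * c)) v ∧
        ∀ i < n * c, Move Gf T (lt i) (y i) (y (i + 1))
  | 0, u, v, h => ⟨fun _ => u, Setoid.refl' _ _, h,
      fun i hi => absurd hi (by simp)⟩
  | n + 1, u, v, Or.inl h =>
    ⟨fun _ => u, Setoid.refl' _ _, h, fun i _ => Or.inl (Setoid.refl' _ _)⟩
  | n + 1, u, v, Or.inr ⟨w, ⟨r, hr, hm⟩, hw⟩ => by
    obtain ⟨y, y0, yv, ym⟩ := exists_path lt hper hlt hw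
    obtain ⟨t, ht, rfl⟩ := hlt r hr
    refine ⟨fun i => if i ≤ t then u else if i < c then w else y (i - c), ?_, ?_, ?_⟩
    · simp
    · have h1 : ¬ (n + 1) * c ≤ t := by
        rw [Nat.succ_mul]; omega
      have h2 : ¬ (n + 1) * c < c := by
        rw [Nat.succ_mul]; omega
      have h3 : (n + 1) * c - c = n * c := by
        rw [Nat.succ_mul]; omega
      simpa only [if_neg h1, if_neg h2, h3] using yv
    · intro i hi
      simp only
      by_cases h1 : i + 1 ≤ t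
      · rw [if_pos h1, if_pos (show i ≤ t by omega)]
        exact Or.inl (Setoid.refl' _ _)
      by_cases h2 : i ≤ t
      · have hit : i = t := by omega
        rw [if_pos h2, if_neg h1, hit]
        by_cases h3 : t + 1 < c
        · rw [if_pos h3]; exact hm
        · rw [if_neg h3, show t + 1 - c = 0 by omega]
          exact hm.congr (Setoid.refl' _ _) y0
      rw [if_neg h2, if_neg h1]
      by_cases h3 : i + 1 < c
      · rw [if_pos h3, if_pos (show i < c by omega)]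
        exact Or.inl (Setoid.refl' _ _)
      rw [if_neg h3]
      by_cases h4 : i < c
      · rw [if_pos h4, show i + 1 - c = 0 by omega]
        exact Or.inl y0
      · rw [if_neg h4, show i + 1 - c = i - c + 1 by omega,
          show lt i = lt (i - c) from by rw [← hper (i - c), show i - c + c = i by omega]]
        exact ym _ (by rw [Nat.succ_mul] at hi; omega)

end WalkN

end Vale.Agent.P183
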